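import Mathlib

/-! # P227: the rays of a central arrangement generate all its cells -/

set_option linter.unusedSectionVars false

open Set Function

namespace Vale.Agent.P227.Local

variable {n : ℕ}

/-- `v` lies in the closed cell of `u`. -/
def Sub (D : Finset (Fin n → ℝ)) (v u : Fin n → ℝ) : Prop :=
  ∀ d ∈ D, (0 ≤ d ⬝ᵥ u → 0 ≤ d ⬝ᵥ v) ∧ (d ⬝ᵥ u ≤ 0 → d ⬝ᵥ v ≤ 0)

/-- The unit vectors on the rays of the arrangement. -/
def rays (D : Finset (Fin n → ℝ)) : Set (Fin n → ℝ) :=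
  {u | ‖u‖ = 1 ∧ ∀ w, (∀ d ∈ D, d ⬝ᵥ u = 0 → d ⬝ᵥ w = 0) → ∃ r : ℝ, w = r • u}

theorem rays_finite (D : Finset (Fin n → ℝ)) : (rays D).Finite := by
  classical
  have hsub : rays D ⊆ ⋃ S ∈ D.powerset, {u ∈ rays D | D.filter (fun d => d ⬝ᵥ u = 0) = S} := by
    intro u hu
    simp only [mem_iUnion]
    exact ⟨_, Finset.mem_powerset.2 (Finset.filter_subset _ _), hu, rfl⟩
  refine (Set.Finite.biUnion D.powerset.finite_toSet fun S _ => ?_).subset hsub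
  rcases Set.eq_empty_or_nonempty {u ∈ rays D | D.filter (fun d => d ⬝ᵥ u = 0) = S} with h | h
  · rw [h]; exact finite_empty
  obtain ⟨u₀, hu₀, hS⟩ := h
  refine (Set.toFinite {u₀, -u₀}).subset ?_
  rintro u ⟨hu, huS⟩
  obtain ⟨r, hr⟩ := hu₀.2 u fun d hd h0 => by
    have : d ∈ D.filter (fun d => d ⬝ᵥ u = 0) := by
      rw [huS, ← hS]; exact Finset.mem_filter.2 ⟨hd, h0⟩
    exact (Finset.mem_filter.1 this).2
  have hn := congrArg norm hr
  rw [norm_smul, hu.1, hu₀.1, mul_one, Real.norm_eq_abs] at hn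
  rcases (abs_eq (zero_le_one' ℝ)).1 hn.symm with h | h <;> subst h <;> simp [hr]

/-- The value of a nonnegative combination of rays of the cell of `u`. -/
def InCone (D : Finset (Fin n → ℝ)) (N : Finset (Fin n → ℝ)) (u : Fin n → ℝ) : Prop :=
  ∃ μ : (Fin n → ℝ) → ℝ, (∀ v, 0 ≤ μ v) ∧ (∀ v ∈ N, μ v ≠ 0 → Sub D v u) ∧
    ∑ v ∈ N, μ v • v = u

theorem InCone.comb {D N : Finset (Fin n → ℝ)} {u x y : Fin n → ℝ} {p q : ℝ}
    (hx : InCone D N x) (hy : InCone D N y) (hxu : Sub D x u) (hyu : Sub D y u)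
    (hp : 0 ≤ p) (hq : 0 ≤ q) (h : p • x + q • y = u) : InCone D N u := by
  obtain ⟨μ, hμ0, hμs, hμ⟩ := hx
  obtain ⟨ν, hν0, hνs, hν⟩ := hy
  refine ⟨fun v => p * μ v + q * ν v, fun v => by have := hμ0 v; have := hν0 v; positivity,
    fun v hv hne => ?_, ?_⟩
  · rcases eq_or_ne (μ v) 0 with h0 | h0
    · have hν' : ν v ≠ 0 := fun h1 => hne (by simp [h0, h1])
      exact fun d hd => ⟨fun hh => (hνs v hv hν' d hd).1 ((hyu d hd).1 hh),
        fun hh => (hνs v hv hν' d hd).2 ((hyu d hd).2 hh)⟩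
    · exact fun d hd => ⟨fun hh => (hμs v hv h0 d hd).1 ((hxu d hd).1 hh),
        fun hh => (hμs v hv h0 d hd).2 ((hxu d hd).2 hh)⟩
  · simp only [add_smul, mul_smul, Finset.sum_add_distrib, ← Finset.smul_sum, hμ, hν, h]

/-- Moving inside the cell until a new wall is met. -/
theorem exists_step (D : Finset (Fin n → ℝ)) (u w : Fin n → ℝ)
    (hw : ∀ d ∈ D, d ⬝ᵥ u = 0 → d ⬝ᵥ w = 0)
    (hopp : ∃ d ∈ D, (d ⬝ᵥ u) * (d ⬝ᵥ w) < 0) :
    ∃ s > (0 : ℝ), Sub D (u + s • w) u ∧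
      ((D.filter fun d => d ⬝ᵥ (u + s • w) ≠ 0).card < (D.filter fun d => d ⬝ᵥ u ≠ 0).card) := by
  classical
  set O := D.filter fun d => (d ⬝ᵥ u) * (d ⬝ᵥ w) < 0
  have hO : O.Nonempty := by
    obtain ⟨d, hd, h⟩ := hopp
    exact ⟨d, Finset.mem_filter.2 ⟨hd, h⟩⟩
  obtain ⟨d₁, hd₁, hmin⟩ := O.exists_min_image (fun d => -(d ⬝ᵥ u) / (d ⬝ᵥ w)) hO
  obtain ⟨hd₁D, hd₁o⟩ := Finset.mem_filter.1 hd₁
  set s := -(d₁ ⬝ᵥ u) / (d₁ ⬝ᵥ w) with hs
  have hw1 : d₁ ⬝ᵥ w ≠ 0 := fun h => by simp [h] at hd₁o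
  have hspos : 0 < s := by
    rw [hs, show -(d₁ ⬝ᵥ u) / (d₁ ⬝ᵥ w) = -((d₁ ⬝ᵥ u) * (d₁ ⬝ᵥ w)) / (d₁ ⬝ᵥ w) ^ 2 by field_simp]
    exact div_pos (neg_pos.2 hd₁o) (pow_two_pos_of_ne_zero hw1)
  have hdot : ∀ d : Fin n → ℝ, d ⬝ᵥ (u + s • w) = d ⬝ᵥ u + s * (d ⬝ᵥ w) := fun d => by
    simp [dotProduct_add, dotProduct_smul]
  refine ⟨s, hspos, fun d hd => ?_, ?_⟩
  · rw [hdot]
    rcases lt_trichotomy (d ⬝ᵥ u) 0 with hu | hu | hu
    · refine ⟨fun h => absurd h (not_le.2 hu), fun _ => ?_⟩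
      rcases le_or_gt (d ⬝ᵥ w) 0 with hw' | hw'
      · nlinarith
      · have h := hmin d (Finset.mem_filter.2 ⟨hd, mul_neg_of_neg_of_pos hu hw'⟩)
        rw [le_div_iff₀ hw'] at h
        linarith
    · simp [hu, hw d hd hu]
    · refine ⟨fun _ => ?_, fun h => absurd h (not_le.2 hu)⟩
      rcases le_or_gt 0 (d ⬝ᵥ w) with hw' | hw'
      · nlinarith
      · have h := hmin d (Finset.mem_filter.2 ⟨hd, mul_neg_of_pos_of_neg hu hw'⟩)
        rw [le_div_iff_of_neg hw'] at h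
        linarith
  · refine Finset.card_lt_card ((Finset.ssubset_iff_of_subset ?_).2 ⟨d₁, ?_, ?_⟩)
    · intro d hd
      obtain ⟨hdD, hdn⟩ := Finset.mem_filter.1 hd
      refine Finset.mem_filter.2 ⟨hdD, fun h0 => hdn ?_⟩
      rw [hdot, h0, hw d hdD h0]; ring
    · exact Finset.mem_filter.2 ⟨hd₁D, fun h0 => by simp [h0] at hd₁o⟩
    · intro h
      refine (Finset.mem_filter.1 h).2 ?_
      rw [hdot, hs]; field_simp; ring

/-- Every vector is a nonnegative combination of rays of its cell. -/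
theorem inCone_rays (D : Finset (Fin n → ℝ)) (hD : ∀ w, (∀ d ∈ D, d ⬝ᵥ w = 0) → w = 0)
    (u : Fin n → ℝ) : InCone D (rays_finite D).toFinset u := by
  classical
  induction hk : (D.filter fun d => d ⬝ᵥ u ≠ 0).card using Nat.strong_induction_on generalizing u with
  | _ k ih =>
  subst hk
  by_cases hu : u = 0
  · exact ⟨0, fun _ => le_rfl, fun v _ h => absurd rfl h, by simp [hu]⟩
  have hnorm : 0 < ‖u‖ := norm_pos_iff.2 hu
  by_cases hray : ∀ w, (∀ d ∈ D, d ⬝ᵥ u = 0 → d ⬝ᵥ w = 0) → ∃ r : ℝ, w = r • u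
  · set v₀ := ‖u‖⁻¹ • u with hv₀
    have hmem : v₀ ∈ (rays_finite D).toFinset := by
      rw [Set.Finite.mem_toFinset]
      refine ⟨?_, fun w hw => ?_⟩
      · rw [hv₀, norm_smul, norm_inv, norm_norm, inv_mul_cancel₀ hnorm.ne']
      · obtain ⟨r, hr⟩ := hray w fun d hd h0 => hw d hd (by simp [hv₀, dotProduct_smul, h0])
        exact ⟨r * ‖u‖, by rw [hr, hv₀, smul_smul, mul_assoc, mul_inv_cancel₀ hnorm.ne', mul_one]⟩
    refine ⟨fun v => if v = v₀ then ‖u‖ else 0, fun v => by dsimp only; split <;> positivity,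
      fun v _ hv => ?_, ?_⟩
    · have : v = v₀ := by
        by_contra hne; simp [hne] at hv
      subst this
      intro d _
      constructor <;> intro h <;> simp only [hv₀, dotProduct_smul, smul_eq_mul]
      · positivity
      · exact mul_nonpos_of_nonneg_of_nonpos (by positivity) h
    · rw [Finset.sum_eq_single v₀ (fun b _ hb => by simp [hb]) (fun h => absurd hmem h)]
      simp only [if_true]
      rw [hv₀, smul_smul, mul_inv_cancel₀ hnorm.ne', one_smul]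
  push Not at hray
  obtain ⟨w₀, hw₀, hw₀r⟩ := hray
  obtain ⟨d₀, hd₀, hd₀u⟩ : ∃ d ∈ D, d ⬝ᵥ u ≠ 0 := by
    by_contra hc; push Not at hc; exact hu (hD u hc)
  set w := w₀ - ((d₀ ⬝ᵥ w₀) / (d₀ ⬝ᵥ u)) • u with hwdef
  have hw : ∀ d ∈ D, d ⬝ᵥ u = 0 → d ⬝ᵥ w = 0 := fun d hd h0 => by
    simp [hwdef, dotProduct_sub, dotProduct_smul, h0, hw₀ d hd h0]
  have hw0 : d₀ ⬝ᵥ w = 0 := by
    simp [hwdef, dotProduct_sub, dotProduct_smul]; field_simp; ring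
  have hwne : w ≠ 0 := fun h => hw₀r _ (sub_eq_zero.1 h)
  have hwneg : ∀ d ∈ D, d ⬝ᵥ u = 0 → d ⬝ᵥ (-w) = 0 := fun d hd h0 => by
    simp [hw d hd h0]
  have hnone : ∀ z : Fin n → ℝ, (∀ d ∈ D, d ⬝ᵥ u = 0 → d ⬝ᵥ z = 0) → d₀ ⬝ᵥ z = 0 →
      (¬ ∃ d ∈ D, (d ⬝ᵥ u) * (d ⬝ᵥ z) < 0) → Sub D z u ∧
        (D.filter fun d => d ⬝ᵥ z ≠ 0).card < (D.filter fun d => d ⬝ᵥ u ≠ 0).card := by
    intro z hz hz0 hno
    push Not at hno
    refine ⟨fun d hd => ?_, Finset.card_lt_card ((Finset.ssubset_iff_of_subset ?_).2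
      ⟨d₀, Finset.mem_filter.2 ⟨hd₀, hd₀u⟩, fun h => (Finset.mem_filter.1 h).2 hz0⟩)⟩
    · have := hno d hd
      rcases lt_trichotomy (d ⬝ᵥ u) 0 with h | h | h
      · exact ⟨fun h' => absurd h' (not_le.2 h), fun _ => by nlinarith⟩
      · simp [h, hz d hd h]
      · exact ⟨fun _ => by nlinarith, fun h' => absurd h' (not_le.2 h)⟩
    · intro d hd
      obtain ⟨hdD, hdn⟩ := Finset.mem_filter.1 hd
      exact Finset.mem_filter.2 ⟨hdD, fun h0 => hdn (hz d hdD h0)⟩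
  have hw0' : d₀ ⬝ᵥ (-w) = 0 := by simp [hw0]
  by_cases hp : ∃ d ∈ D, (d ⬝ᵥ u) * (d ⬝ᵥ w) < 0
  · obtain ⟨s, hs, hsS, hsc⟩ := exists_step D u w hw hp
    by_cases hm : ∃ d ∈ D, (d ⬝ᵥ u) * (d ⬝ᵥ (-w)) < 0
    · obtain ⟨s', hs', hsS', hsc'⟩ := exists_step D u (-w) hwneg hm
      refine (ih _ hsc _ rfl).comb (ih _ hsc' _ rfl) hsS hsS' (p := s' / (s + s'))
        (q := s / (s + s')) (by positivity) (by positivity) ?_
      funext k; simp; field_simp; ring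
    · obtain ⟨hS', hc'⟩ := hnone _ hwneg hw0' hm
      refine (ih _ hsc _ rfl).comb (ih _ hc' _ rfl) hsS hS' (p := 1) (q := s)
        zero_le_one hs.le ?_
      funext k; simp
  · obtain ⟨hS, hc⟩ := hnone _ hw hw0 hp
    have hm : ∃ d ∈ D, (d ⬝ᵥ u) * (d ⬝ᵥ (-w)) < 0 := by
      obtain ⟨d, hd, hdw⟩ : ∃ d ∈ D, d ⬝ᵥ w ≠ 0 := by
        by_contra hc; push Not at hc; exact hwne (hD w hc)
      push Not at hp
      refine ⟨d, hd, ?_⟩
      have := (hp d hd).lt_of_ne' (mul_ne_zero (fun h => hdw (hw d hd h)) hdw)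
      simp only [dotProduct_neg, mul_neg]
      linarith
    obtain ⟨s', hs', hsS', hsc'⟩ := exists_step D u (-w) hwneg hm
    refine (ih _ hsc' _ rfl).comb (ih _ hc _ rfl) hsS' hS (p := 1) (q := s')
      zero_le_one hs'.le ?_
    funext k; simp

end Vale.Agent.P227.Local
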