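import Vale.Agent.P227.Local.Main
import Vale.Agent.P227.Local.Cones

/-! # P227: the local inequality for polytopes given by points -/

set_option linter.unusedSectionVars false

open Set MeasureTheory Filter Topology Function
open scoped Pointwise

namespace Vale.Agent.P227.Local

variable {n : ℕ}

/-- A coordinate sign change. -/
def fl' (s : Finset (Fin n)) (x : Fin n → ℝ) : Fin n → ℝ := fun k => if k ∈ s then -x k else x k

theorem fl'_single (q : Fin n) (x : Fin n → ℝ) : update x q (-x q) = fl' {q} x := by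
  funext k; by_cases hk : k = q <;> simp [fl', hk]

theorem dot_fl' (s : Finset (Fin n)) (x y : Fin n → ℝ) : fl' s x ⬝ᵥ y = x ⬝ᵥ fl' s y := by
  refine Finset.sum_congr rfl fun k _ => ?_
  by_cases hk : k ∈ s <;> simp [fl', hk]

theorem fl'_fl' (s : Finset (Fin n)) (x : Fin n → ℝ) : fl' s (fl' s x) = x := by
  funext k; by_cases hk : k ∈ s <;> simp [fl', hk]

theorem norm_fl' (s : Finset (Fin n)) (x : Fin n → ℝ) : ‖fl' s x‖ = ‖x‖ := by
  simp only [Pi.norm_def]
  congr 1
  refine Finset.sup_congr rfl fun k _ => ?_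
  by_cases hk : k ∈ s <;> simp [fl', hk]

/-- The directions defining the arrangement. -/
noncomputable def diffs (A B : Finset (Fin n → ℝ)) : Finset (Fin n → ℝ) := by
  classical
  exact (Finset.univ : Finset (Fin n)).powerset.biUnion fun s =>
    (((A ×ˢ A).image fun p => p.1 - p.2) ∪ ((B ×ˢ B).image fun p => p.1 - p.2)
      ∪ Finset.univ.image fun k => Pi.single k (1 : ℝ)).image (fl' s)

theorem diffs_flip {A B : Finset (Fin n → ℝ)} {d : Fin n → ℝ} (hd : d ∈ diffs A B) (q : Fin n) :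
    fl' {q} d ∈ diffs A B := by
  classical
  simp only [diffs, Finset.mem_biUnion, Finset.mem_image] at hd ⊢
  obtain ⟨s, -, e, he, rfl⟩ := hd
  refine ⟨if q ∈ s then s.erase q else insert q s,
    Finset.mem_powerset.2 (Finset.subset_univ _), e, he, ?_⟩
  funext k
  by_cases hq : q ∈ s <;> by_cases hk : k = q <;> by_cases hks : k ∈ s <;> simp_all [fl']

theorem diffs_mem {A B : Finset (Fin n → ℝ)} {d : Fin n → ℝ}
    (hd : (∃ x ∈ A, ∃ y ∈ A, d = x - y) ∨ (∃ x ∈ B, ∃ y ∈ B, d = x - y) ∨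
      ∃ k, d = Pi.single k 1) : d ∈ diffs A B := by
  classical
  simp only [diffs, Finset.mem_biUnion, Finset.mem_image]
  refine ⟨∅, Finset.empty_mem_powerset _, d, ?_, funext fun k => by simp [fl']⟩
  rcases hd with ⟨x, hx, y, hy, rfl⟩ | ⟨x, hx, y, hy, rfl⟩ | ⟨k, rfl⟩
  · exact Finset.mem_union_left _ (Finset.mem_union_left _
      (Finset.mem_image.2 ⟨(x, y), Finset.mem_product.2 ⟨hx, hy⟩, rfl⟩))
  · exact Finset.mem_union_left _ (Finset.mem_union_right _
      (Finset.mem_image.2 ⟨(x, y), Finset.mem_product.2 ⟨hx, hy⟩, rfl⟩))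
  · exact Finset.mem_union_right _ (Finset.mem_image.2 ⟨k, Finset.mem_univ k, rfl⟩)

/-- The largest value of a linear form on a finite set. -/
noncomputable def top' (A : Finset (Fin n → ℝ)) (hA : A.Nonempty) (u : Fin n → ℝ) : ℝ :=
  A.sup' hA fun x => ∑ k, u k * x k

theorem le_top' (A : Finset (Fin n → ℝ)) (hA : A.Nonempty) (u : Fin n → ℝ) {x : Fin n → ℝ}
    (hx : x ∈ convexHull ℝ (A : Set (Fin n → ℝ))) : ∑ k, u k * x k ≤ top' A hA u := by
  have hconv : Convex ℝ {z : Fin n → ℝ | ∑ k, u k * z k ≤ top' A hA u} := by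
    refine convex_halfSpace_le ⟨fun x y => ?_, fun c x => ?_⟩ _
    · simp [mul_add, Finset.sum_add_distrib]
    · simp [Finset.mul_sum, mul_left_comm]
  exact convexHull_min (fun z hz => show ∑ k, u k * z k ≤ top' A hA u from
    Finset.le_sup' (fun x => ∑ k, u k * x k) hz) hconv hx

/-- A common decomposition of a direction into rays. -/
theorem decomp (A B : Finset (Fin n → ℝ)) (hA : A.Nonempty) (hB : B.Nonempty) (u : Fin n → ℝ) :
    ∃ μ : {v // v ∈ (rays_finite (diffs A B)).toFinset} → ℝ, (∀ v, 0 ≤ μ v) ∧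
      (∀ z : Fin n → ℝ, ∑ k, u k * z k = ∑ v, μ v * ∑ k, v.1 k * z k) ∧
      top' A hA u = ∑ v, μ v * top' A hA v.1 ∧ top' B hB u = ∑ v, μ v * top' B hB v.1 := by
  classical
  obtain ⟨μ, hμ0, hμs, hμ⟩ := inCone_rays (diffs A B) (fun w hw => funext fun k => by
    simpa using hw _ (diffs_mem (.inr (.inr ⟨k, rfl⟩)))) u
  set N := (rays_finite (diffs A B)).toFinset
  have hdot : ∀ z : Fin n → ℝ, ∑ k, u k * z k = ∑ v : {v // v ∈ N}, μ v.1 * ∑ k, v.1 k * z k := by
    intro z
    rw [Finset.sum_coe_sort N (fun v => μ v * ∑ k, v k * z k)]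
    conv_lhs => rw [← hμ]
    simp only [Finset.sum_apply, Pi.smul_apply, smul_eq_mul, Finset.sum_mul, Finset.mul_sum]
    rw [Finset.sum_comm]
    simp [mul_assoc]
  have htop : ∀ (S : Finset (Fin n → ℝ)) (hS : S.Nonempty),
      (∀ x ∈ S, ∀ y ∈ S, x - y ∈ diffs A B) →
      top' S hS u = ∑ v : {v // v ∈ N}, μ v.1 * top' S hS v.1 := by
    intro S hS hd
    obtain ⟨x₀, hx₀, hmax⟩ := S.exists_max_image (fun x => ∑ k, u k * x k) hS
    have hu : top' S hS u = ∑ k, u k * x₀ k :=
      le_antisymm (Finset.sup'_le _ _ hmax) (Finset.le_sup' (fun x => ∑ k, u k * x k) hx₀)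
    rw [hu, hdot]
    refine Finset.sum_congr rfl fun v _ => ?_
    rcases eq_or_ne (μ v.1) 0 with h0 | h0
    · simp [h0]
    congr 1
    refine le_antisymm (Finset.le_sup' (fun x => ∑ k, v.1 k * x k) hx₀)
      (Finset.sup'_le _ _ fun x hx => ?_)
    have hnn : 0 ≤ (x₀ - x) ⬝ᵥ u := by
      rw [sub_dotProduct, sub_nonneg, dotProduct_comm x, dotProduct_comm x₀]
      exact hmax x hx
    have := (hμs v.1 v.2 h0 _ (hd x₀ hx₀ x hx)).1 hnn
    rw [sub_dotProduct, sub_nonneg, dotProduct_comm x, dotProduct_comm x₀] at this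
    exact this
  exact ⟨fun v => μ v.1, fun v => hμ0 v.1, hdot,
    htop A hA fun x hx y hy => diffs_mem (.inl ⟨x, hx, y, hy, rfl⟩),
    htop B hB fun x hx y hy => diffs_mem (.inr (.inl ⟨x, hx, y, hy, rfl⟩))⟩

theorem bdd_of_bounded_n {ι : Type*} [Fintype ι] {n : ℕ} (hn : 2 ≤ n) {v : ι → Fin n → ℝ}
    {a : ι → ℝ} (hpos : ∀ i, 0 < a i) (hb : Bornology.IsBounded (poly v a)) : Bdd v := by
  classical
  obtain ⟨m, rfl⟩ : ∃ m, n = m + 2 := ⟨n - 2, by omega⟩
  exact bdd_of_bounded hpos hb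

/-- The local inequality at an unconditional polytope against a symmetric polytope. -/
theorem local_bodies (hn : 2 ≤ n) (A B : Finset (Fin n → ℝ)) (hA : A.Nonempty) (hB : B.Nonempty)
    (hAflip : ∀ x ∈ A, ∀ k, update x k (-x k) ∈ convexHull ℝ (A : Set (Fin n → ℝ)))
    (hAint : ∀ u : Fin n → ℝ, u ≠ 0 → ∃ x ∈ A, 0 < ∑ k, u k * x k)
    (hBsym : ∀ x ∈ B, -x ∈ convexHull ℝ (B : Set (Fin n → ℝ)))
    (lam : ℝ) (h0 : 0 ≤ lam) (h1 : lam ≤ 1) (η : ℝ) (hη : 0 < η) :
    ∀ᶠ t in 𝓝[Set.Ici 0] (0 : ℝ),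
      (volume (convexHull ℝ (A : Set (Fin n → ℝ)))).toReal ^ (1 - lam)
          * (volume (convexHull ℝ (A : Set (Fin n → ℝ))
              + t • convexHull ℝ (B : Set (Fin n → ℝ)))).toReal ^ lam
        ≤ (volume {x : Fin n → ℝ | ∀ u : Fin n → ℝ, ∑ k, u k * x k ≤
            (A.sup' hA fun p => ∑ k, u k * p k) ^ (1 - lam)
              * ((A.sup' hA fun p => ∑ k, u k * p k)
                + t * (B.sup' hB fun p => ∑ k, u k * p k)) ^ lam}).toReal + η * t ^ 2 := by
  classical
  set N := (rays_finite (diffs A B)).toFinset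
  set v : {v // v ∈ N} → Fin n → ℝ := Subtype.val with hvdef
  have hray : ∀ i, v i ∈ rays (diffs A B) := fun i => (Set.Finite.mem_toFinset _).1 i.2
  have hvne : ∀ i, v i ≠ 0 := fun i h => by simpa [h] using (hray i).1
  set a : {v // v ∈ N} → ℝ := fun i => top' A hA (v i) with ha'
  set g : {v // v ∈ N} → ℝ := fun i => top' B hB (v i) with hg'
  have hha : ∀ i, 0 < a i := fun i => by
    obtain ⟨x, hx, hpos⟩ := hAint _ (hvne i)
    exact hpos.trans_le (Finset.le_sup' (fun p => ∑ k, v i k * p k) hx)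
  have hinv : ∀ q u, top' A hA (fl' {q} u) = top' A hA u := by
    have hle : ∀ q u, top' A hA (fl' {q} u) ≤ top' A hA u := fun q u => by
      refine Finset.sup'_le _ _ fun x hx => ?_
      refine le_of_eq_of_le (dot_fl' {q} u x) ?_
      rw [← fl'_single]
      exact le_top' A hA u (hAflip x hx q)
    intro q u
    refine le_antisymm (hle q u) ?_
    simpa [fl'_fl'] using hle q (fl' {q} u)
  have hBnn : ∀ u, 0 ≤ top' B hB u := fun u => by
    obtain ⟨x, hx⟩ := hB
    have h1 := le_top' B ⟨x, hx⟩ u (subset_convexHull ℝ _ hx)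
    have h2 := le_top' B ⟨x, hx⟩ u (hBsym x hx)
    simp only [Pi.neg_apply, mul_neg, Finset.sum_neg_distrib] at h2
    linarith
  have hflip : ∀ i k, ∃ j, v j = update (v i) k (-v i k) ∧ a j = a i := by
    intro i k
    have hmem : fl' {k} (v i) ∈ N := by
      refine (Set.Finite.mem_toFinset _).2 ⟨by rw [norm_fl', (hray i).1], fun w hw => ?_⟩
      obtain ⟨r, hr⟩ := (hray i).2 (fl' {k} w) fun d hd h0 => by
        rw [← dot_fl']
        refine hw _ (diffs_flip hd k) ?_
        rw [dot_fl', fl'_fl', h0]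
      refine ⟨r, ?_⟩
      rw [← fl'_fl' {k} w, hr]
      funext l; by_cases hl : l = k <;> simp [fl', hl]
    exact ⟨⟨_, hmem⟩, (fl'_single k (v i)).symm, hinv k (v i)⟩
  have hdist : ∀ i j (r : ℝ), 0 < r → v j = r • v i → j = i := fun i j r hr h => by
    have := congrArg norm h
    rw [norm_smul, (hray j).1, (hray i).1, mul_one, Real.norm_eq_abs, abs_of_pos hr] at this
    rw [← this, one_smul] at h
    exact Subtype.ext h
  have hbody : ∀ t : ℝ, 0 ≤ t → {x : Fin n → ℝ | ∀ i, ∑ k, v i k * x k ≤ a i + t * g i}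
      = convexHull ℝ (A : Set (Fin n → ℝ)) + t • convexHull ℝ (B : Set (Fin n → ℝ)) := by
    intro t ht
    refine Set.Subset.antisymm (fun x hx => ?_) ?_
    · by_contra hxn
      obtain ⟨f, r, hfr, hrx⟩ := geometric_hahn_banach_closed_point
        ((convex_convexHull ℝ _).add ((convex_convexHull ℝ _).smul t))
        ((A.finite_toSet.isCompact_convexHull (𝕜 := ℝ)).add
          ((B.finite_toSet.isCompact_convexHull (𝕜 := ℝ)).smul t)).isClosed hxn
      set u : Fin n → ℝ := fun k => f (Pi.single k 1)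
      have hf : ∀ z, f z = ∑ k, u k * z k := fun z => by
        conv_lhs => rw [pi_eq_sum_univ' z]
        simp [u, map_sum, mul_comm]
      obtain ⟨μ, hμ0, hdot, hAu, hBu⟩ := decomp A B hA hB u
      obtain ⟨xa, hxa, hxam⟩ := A.exists_mem_eq_sup' hA (fun p => ∑ k, u k * p k)
      obtain ⟨xb, hxb, hxbm⟩ := B.exists_mem_eq_sup' hB (fun p => ∑ k, u k * p k)
      have hz := hfr (xa + t • xb) (Set.add_mem_add (subset_convexHull ℝ _ hxa)
        (Set.smul_mem_smul_set (subset_convexHull ℝ _ hxb)))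
      rw [map_add, map_smul, hf, hf, ← hxam, ← hxbm, smul_eq_mul] at hz
      change top' A hA u + t * top' B hB u < r at hz
      have h1 : f x ≤ top' A hA u + t * top' B hB u := by
        rw [hf, hdot, hAu, hBu, Finset.mul_sum, ← Finset.sum_add_distrib]
        refine Finset.sum_le_sum fun i _ => ?_
        refine (mul_le_mul_of_nonneg_left (hx i) (hμ0 i)).trans_eq ?_
        simp only [ha', hg', hvdef]; ring
      linarith
    · rintro _ ⟨p, hp, _, ⟨q, hq, rfl⟩, rfl⟩ i
      simp only [Pi.add_apply, Pi.smul_apply, smul_eq_mul, mul_add, Finset.sum_add_distrib,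
        mul_left_comm (v i _), ← Finset.mul_sum]
      exact add_le_add (le_top' A hA _ hp) (mul_le_mul_of_nonneg_left (le_top' B hB _ hq) ht)
  have hbody0 : {x : Fin n → ℝ | ∀ i, ∑ k, v i k * x k ≤ a i}
      = convexHull ℝ (A : Set (Fin n → ℝ)) := by
    have := hbody 0 le_rfl
    rw [zero_smul_set (hB.to_set.mono (subset_convexHull ℝ _)), add_zero] at this
    simpa using this
  have hbdd : Bornology.IsBounded {x : Fin n → ℝ | ∀ i, ∑ k, v i k * x k ≤ a i} := by
    rw [hbody0]; exact (A.finite_toSet.isCompact_convexHull (𝕜 := ℝ)).isBounded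
  have htight : ∀ i, ∃ x : Fin n → ℝ, (∀ j, ∑ k, v j k * x k ≤ a j) ∧
      ∑ k, v i k * x k = a i := fun i => by
    obtain ⟨x, hx, hxm⟩ := A.exists_mem_eq_sup' hA (fun p => ∑ k, v i k * p k)
    exact ⟨x, fun j => le_top' A hA _ (subset_convexHull ℝ _ hx), hxm.symm⟩
  have heven : ∀ i j, v j = -v i → g j = g i := by
    have hle : ∀ u, top' B hB (-u) ≤ top' B hB u := fun u => by
      refine Finset.sup'_le _ _ fun x hx => le_of_eq_of_le ?_ (le_top' B hB u (hBsym x hx))
      simp
    intro i j h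
    simp only [hg', h]
    exact le_antisymm (hle _) (by simpa using hle (-v i))
  have hconv : ∀ i j l (p q : ℝ), 0 < p → 0 < q → v l = p • v j + q • v i →
      a l = p * a j + q * a i → g l ≤ p * g j + q * g i := by
    intro i j l p q hp hq hv _
    refine Finset.sup'_le _ _ fun x hx => ?_
    rw [hv]
    simp only [Pi.add_apply, Pi.smul_apply, smul_eq_mul, add_mul, mul_assoc,
      Finset.sum_add_distrib, ← Finset.mul_sum]
    exact add_le_add (mul_le_mul_of_nonneg_left (le_top' B hB _ (subset_convexHull ℝ _ hx)) hp.le)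
      (mul_le_mul_of_nonneg_left (le_top' B hB _ (subset_convexHull ℝ _ hx)) hq.le)
  filter_upwards [local_finite hn v a g hha hflip hbdd htight hdist heven hconv lam h0 h1 η hη,
    self_mem_nhdsWithin] with t ht ht0
  have ht0' : 0 ≤ t := ht0
  rw [hbody t ht0', hbody0] at ht
  refine ht.trans (add_le_add_left ?_ _)
  have hfin : volume {x : Fin n → ℝ | ∀ u : Fin n → ℝ, ∑ k, u k * x k ≤
      top' A hA u ^ (1 - lam) * (top' A hA u + t * top' B hB u) ^ lam} ≠ ⊤ := by
    obtain ⟨C, hC⟩ := (bdd_of_bounded_n hn hha hbdd)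
      ‖fun i => a i ^ (1 - lam) * (a i + t * g i) ^ lam‖
    refine ((measure_mono (t := Metric.closedBall (0 : Fin n → ℝ) C) fun x hx => ?_).trans_lt
      measure_closedBall_lt_top).ne
    exact mem_closedBall_zero_iff.2 (hC _ le_rfl x fun i => hx (v i))
  refine ENNReal.toReal_mono hfin (measure_mono fun x hx u => ?_)
  show ∑ k, u k * x k ≤ top' A hA u ^ (1 - lam) * (top' A hA u + t * top' B hB u) ^ lam
  obtain ⟨μ, hμ0, hdot, hAu, hBu⟩ := decomp A B hA hB u
  rw [hdot]
  have hbpos : ∀ i, 0 < a i + t * g i := fun i =>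
    add_pos_of_pos_of_nonneg (hha i) (mul_nonneg ht0' (hBnn _))
  set SA := ∑ i, μ i * a i with hSA
  set SB := ∑ i, μ i * (a i + t * g i) with hSB
  have hSAu : top' A hA u = SA := hAu
  have hSBu : top' A hA u + t * top' B hB u = SB := by
    rw [hAu, hBu, hSB, Finset.mul_sum, ← Finset.sum_add_distrib]
    exact Finset.sum_congr rfl fun i _ => by simp only [ha', hg', hvdef]; ring
  rw [hSAu] at hSBu ⊢
  rw [hSBu]
  refine le_trans (Finset.sum_le_sum fun i _ => mul_le_mul_of_nonneg_left (hx i) (hμ0 i)) ?_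
  rcases (show 0 ≤ SA from Finset.sum_nonneg fun i _ => mul_nonneg (hμ0 i) (hha i).le).eq_or_lt
    with hz | hpos
  · have hμz : ∀ i, μ i = 0 := fun i => by
      have := (Finset.sum_eq_zero_iff_of_nonneg fun i _ => mul_nonneg (hμ0 i) (hha i).le).1
        hz.symm i (Finset.mem_univ i)
      exact (mul_eq_zero.1 this).resolve_right (hha i).ne'
    have h0' : 0 ≤ SB := Finset.sum_nonneg fun i _ => mul_nonneg (hμ0 i) (hbpos i).le
    simp only [hμz, zero_mul, Finset.sum_const_zero]
    positivity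
  have hSBpos : 0 < SB := hpos.trans_le (Finset.sum_le_sum fun i _ =>
    mul_le_mul_of_nonneg_left (le_add_of_nonneg_right (mul_nonneg ht0' (hBnn _))) (hμ0 i))
  set G := SA ^ (1 - lam) * SB ^ lam with hG
  calc ∑ i, μ i * (a i ^ (1 - lam) * (a i + t * g i) ^ lam)
      ≤ ∑ i, μ i * (G * ((1 - lam) * (a i / SA) + lam * ((a i + t * g i) / SB))) := by
        refine Finset.sum_le_sum fun i _ => mul_le_mul_of_nonneg_left ?_ (hμ0 i)
        have key := Real.geom_mean_le_arith_mean2_weighted (sub_nonneg.2 h1) h0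
          (div_nonneg (hha i).le hpos.le) (div_nonneg (hbpos i).le hSBpos.le) (by ring)
        rw [Real.div_rpow (hha i).le hpos.le, Real.div_rpow (hbpos i).le hSBpos.le,
          div_mul_div_comm, div_le_iff₀ (by positivity)] at key
        linarith
    _ = G * ((1 - lam) / SA * SA + lam / SB * SB) := by
        conv_rhs => arg 2; arg 1; arg 2; rw [hSA]
        conv_rhs => arg 2; arg 2; arg 2; rw [hSB]
        rw [Finset.mul_sum, Finset.mul_sum, ← Finset.sum_add_distrib, Finset.mul_sum]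
        exact Finset.sum_congr rfl fun i _ => by ring
    _ = G := by field_simp; ring

end Vale.Agent.P227.Local
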