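import Vale.Agent.P227.Local.Parity

/-! # P227: polytopes described with additional supporting constraints -/

set_option linter.unusedSectionVars false

open Set MeasureTheory Filter Topology Function

namespace Vale.Agent.P227.Local

variable {ι : Type*} [Fintype ι] [DecidableEq ι] {m : ℕ}

/-- An unconditional polytope with any finite family of supporting constraints. -/
structure Tight (v : ι → Fin (m + 2) → ℝ) (a : ι → ℝ) : Prop where
  pos : ∀ i, 0 < a i
  flip : ∀ i k, ∃ j, v j = update (v i) k (-v i k) ∧ a j = a i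
  bdd : Bornology.IsBounded (poly v a)
  tight : ∀ i, ∃ x ∈ poly v a, ∑ k, v i k * x k = a i
  dist : ∀ i j (r : ℝ), 0 < r → v j = r • v i → j = i

/-- Euclidean lengths of the normals. -/
noncomputable def len (v : ι → Fin (m + 2) → ℝ) (i : ι) : ℝ := Real.sqrt (∑ k, v i k ^ 2)

/-- The offsets near `a` that resolve every tight triple in the convex way. -/
def dom (v : ι → Fin (m + 2) → ℝ) (a : ι → ℝ) : Set (ι → ℝ) :=
  {b | ∀ i j l (p q : ℝ), i ≠ j → 0 < p → 0 < q → v l = p • v j + q • v i →
    a l = p * a j + q * a i → b l < p * b j + q * b i}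

variable {v : ι → Fin (m + 2) → ℝ} {a : ι → ℝ}

theorem Tight.toBdd (ht : Tight v a) : Bdd v := bdd_of_bounded ht.pos ht.bdd

theorem Tight.ne_zero (ht : Tight v a) (i : ι) : v i ≠ 0 := by
  intro h
  obtain ⟨x, -, hx⟩ := ht.tight i
  have := ht.pos i
  simp [h] at hx
  linarith

theorem len_sq (v : ι → Fin (m + 2) → ℝ) (i : ι) : len v i ^ 2 = ∑ k, v i k ^ 2 :=
  Real.sq_sqrt (Finset.sum_nonneg fun _ _ => sq_nonneg _)

theorem Tight.len_pos (ht : Tight v a) (i : ι) : 0 < len v i := by
  obtain ⟨k, hk⟩ := Function.ne_iff.1 (ht.ne_zero i)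
  exact Real.sqrt_pos.2 (Finset.sum_pos' (fun _ _ => sq_nonneg _)
    ⟨k, Finset.mem_univ k, pow_two_pos_of_ne_zero hk⟩)

theorem Tight.inner_lt (ht : Tight v a) {i j : ι} (hij : i ≠ j) :
    ∑ k, v i k * v j k < len v i * len v j := by
  have hi := ht.len_pos i
  have hj := ht.len_pos j
  have hS : 0 < ∑ k, (len v j * v i k - len v i * v j k) ^ 2 := by
    refine Finset.sum_pos' (fun _ _ => sq_nonneg _) ?_
    by_contra hc
    push Not at hc
    refine hij (ht.dist i j (len v j / len v i) (div_pos hj hi) (funext fun k => ?_)).symm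
    have h0 : (len v j * v i k - len v i * v j k) ^ 2 = 0 :=
      le_antisymm (hc k (Finset.mem_univ k)) (sq_nonneg _)
    have h0' := pow_eq_zero_iff two_ne_zero |>.1 h0
    simp only [Pi.smul_apply, smul_eq_mul]
    field_simp
    linarith
  have hexp : ∑ k, (len v j * v i k - len v i * v j k) ^ 2
      = len v j ^ 2 * len v i ^ 2 + len v i ^ 2 * len v j ^ 2
        - 2 * (len v i * len v j) * ∑ k, v i k * v j k := by
    rw [Finset.sum_congr rfl (g := fun k => len v j ^ 2 * v i k ^ 2 + len v i ^ 2 * v j k ^ 2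
      - 2 * (len v i * len v j) * (v i k * v j k)) fun k _ => by ring, Finset.sum_sub_distrib,
      Finset.sum_add_distrib, ← Finset.mul_sum, ← Finset.mul_sum, ← Finset.mul_sum, ← len_sq,
      ← len_sq]
  rw [hexp] at hS
  by_contra hc
  push Not at hc
  nlinarith [mul_le_mul_of_nonneg_left hc (mul_pos hi hj).le]

theorem Tight.len_lt (ht : Tight v a) {i j l : ι} (hij : i ≠ j) {p q : ℝ} (hp : 0 < p)
    (hq : 0 < q) (hv : v l = p • v j + q • v i) : len v l < p * len v j + q * len v i := by
  have hi := ht.len_pos i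
  have hj := ht.len_pos j
  refine lt_of_pow_lt_pow_left₀ 2 (by positivity) ?_
  have hexp : len v l ^ 2
      = p ^ 2 * len v j ^ 2 + q ^ 2 * len v i ^ 2 + 2 * (p * q) * ∑ k, v i k * v j k := by
    rw [len_sq, len_sq, len_sq, Finset.mul_sum, Finset.mul_sum, Finset.mul_sum,
      ← Finset.sum_add_distrib, ← Finset.sum_add_distrib]
    refine Finset.sum_congr rfl fun k _ => ?_
    simp [hv]; ring
  rw [hexp]
  nlinarith [mul_lt_mul_of_pos_left (ht.inner_lt hij) (mul_pos hp hq)]

theorem Tight.perturb_mem (ht : Tight v a) {g : ι → ℝ}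
    (hg : ∀ i j l (p q : ℝ), 0 < p → 0 < q → v l = p • v j + q • v i →
      a l = p * a j + q * a i → g l ≤ p * g j + q * g i)
    {ε s : ℝ} (hε : 0 < ε) (hs : 0 ≤ s) :
    (fun i => a i + ε * len v i + s * g i) ∈ dom v a := by
  intro i j l p q hij hp hq hv ha
  have h1 := mul_lt_mul_of_pos_left (ht.len_lt hij hp hq hv) hε
  have h2 := mul_le_mul_of_nonneg_left (hg i j l p q hp hq hv ha) hs
  show a l + ε * len v l + s * g l
    < p * (a j + ε * len v j + s * g j) + q * (a i + ε * len v i + s * g i)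
  linarith

theorem Tight.std (ht : Tight v a) {ε : ℝ} (hε : 0 < ε) :
    Std v (fun i => a i + ε * len v i) := by
  have hpos : ∀ i, 0 < a i + ε * len v i := fun i => by
    have := ht.pos i; have := ht.len_pos i; positivity
  refine ⟨hpos, fun i k => ?_, ?_, fun i => ?_⟩
  · obtain ⟨j, hj, hja⟩ := ht.flip i k
    refine ⟨j, hj, ?_⟩
    have : len v j = len v i := by
      refine congrArg Real.sqrt (Finset.sum_congr rfl fun l _ => ?_)
      by_cases hl : l = k <;> simp [hj, hl]
    simp [hja, this]
  · obtain ⟨C, hC⟩ := ht.toBdd ‖fun i => a i + ε * len v i‖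
    exact isBounded_iff_forall_norm_le.2 ⟨C, fun y hy => hC _ le_rfl y hy⟩
  obtain ⟨x₀, hx₀, hxi⟩ := ht.tight i
  have hi := ht.len_pos i
  have hev : ∀ᶠ δ in 𝓝 (0 : ℝ), ∀ j, j ≠ i →
      (ε + δ) * ((∑ k, v j k * v i k) / len v i) ≤ ε * len v j := by
    refine eventually_all.2 fun j => ?_
    by_cases hj : j = i
    · exact .of_forall fun _ h => absurd hj h
    have hlt : (∑ k, v j k * v i k) / len v i < len v j := by
      rw [div_lt_iff₀ hi]; exact ht.inner_lt hj
    have hcont : ContinuousAt (fun δ => (ε + δ) * ((∑ k, v j k * v i k) / len v i)) 0 := by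
      fun_prop
    refine (hcont.eventually_lt continuousAt_const ?_).mono fun δ h _ => h.le
    simpa using mul_lt_mul_of_pos_left hlt hε
  obtain ⟨δ, hδ, hδ0⟩ := ((hev.filter_mono nhdsWithin_le_nhds).and
    (self_mem_nhdsWithin (a := (0 : ℝ)) (s := Ioi 0))).exists
  have hsum : ∀ j, ∑ k, v j k * (x₀ k + (ε + δ) / len v i * v i k)
      = ∑ k, v j k * x₀ k + (ε + δ) * ((∑ k, v j k * v i k) / len v i) := fun j => by
    rw [Finset.sum_div, Finset.mul_sum, ← Finset.sum_add_distrib]
    exact Finset.sum_congr rfl fun k _ => by ring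
  refine ⟨fun k => x₀ k + (ε + δ) / len v i * v i k, ?_, fun j hj => ?_⟩
  · rw [hsum, hxi]
    have : (∑ k, v i k * v i k) / len v i = len v i := by
      simp only [← sq, ← len_sq]; field_simp
    rw [this]
    have := mul_lt_mul_of_pos_right (lt_add_of_pos_right ε hδ0) hi
    linarith
  · rw [hsum]; exact add_le_add (hx₀ j) (hδ j hj)

theorem Tight.eventually_regA (ht : Tight v a) : Reg v a := fun i =>
  ⟨fun h => absurd h (ht.ne_zero i), fun _ j => by
    rcases eq_or_ne j i with rfl | hj
    · exact .inr (by simp [sc])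
    by_contra hc
    push Not at hc
    obtain ⟨h1, h2⟩ := hc
    set r := v j (piv v i) / v i (piv v i) with hr
    have h3 : a j = r * a i := by simp [sc, hj, ← hr] at h2; linarith
    have hr0 : 0 < r := pos_of_mul_pos_left (h3 ▸ ht.pos j) (ht.pos i).le
    exact hj (ht.dist i j r hr0 (sw_comb (ht.ne_zero i) hj h1))⟩

/-- The degenerate constraints on a double slice have constant signs near `a` in `dom`. -/
theorem Tight.sign (ht : Tight v a) {i j l : ι} (hj0 : sw v i j ≠ 0) (hlj : l ≠ j)
    (h1 : sw (sw v i) j l = 0) :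
    (∀ᶠ b in 𝓝[dom v a] a, 0 < sc (sw v i) j (sc v i b) l) ∨
      (∀ᶠ b in 𝓝[dom v a] a, sc (sw v i) j (sc v i b) l < 0) := by
  have hi := ht.ne_zero i
  have hji : j ≠ i := fun h => hj0 (h ▸ sw_self v i)
  have hcomb := sw_comb hj0 hlj h1
  set p := sw v i l (piv (sw v i) j) / sw v i j (piv (sw v i) j) with hp
  rcases eq_or_ne l i with rfl | hli
  · rw [sw_self] at hcomb
    have hp0 : p = 0 := (smul_eq_zero.1 hcomb.symm).resolve_right hj0
    left
    refine .of_forall fun b => ?_
    have : sc (sw v l) j (sc v l b) l = sc v l b l - p * sc v l b j := if_neg hlj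
    rw [this, hp0]
    simp [sc]
  set q := v l (piv v i) / v i (piv v i) - p * (v j (piv v i) / v i (piv v i)) with hq
  have hpi := piv_spec hi
  have hv : v l = p • v j + q • v i := by
    funext k
    rcases eq_or_ne k (piv v i) with rfl | hk
    · simp [hq]; field_simp; ring
    · obtain ⟨k', rfl⟩ := Fin.exists_succAbove_eq hk
      have := congrFun hcomb k'
      simp only [sw, if_neg hli, if_neg hji, Pi.smul_apply, smul_eq_mul] at this
      simp only [Pi.add_apply, Pi.smul_apply, smul_eq_mul, hq]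
      linarith
  have hE : ∀ b, sc (sw v i) j (sc v i b) l = b l - p * b j - q * b i := by
    intro b
    have : sc (sw v i) j (sc v i b) l = sc v i b l - p * sc v i b j := if_neg hlj
    rw [this, hq]
    simp only [sc, if_neg hli, if_neg hji]
    ring
  simp only [hE]
  have hcont : ContinuousAt (fun b : ι → ℝ => b l - p * b j - q * b i) a := by fun_prop
  rcases lt_trichotomy (a l - p * a j - q * a i) 0 with hE0 | hE0 | hE0
  · exact .inr ((hcont.eventually (eventually_lt_nhds hE0)).filter_mono nhdsWithin_le_nhds)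
  swap
  · exact .inl ((hcont.eventually (eventually_gt_nhds hE0)).filter_mono nhdsWithin_le_nhds)
  have hal : a l = p * a j + q * a i := by linarith
  have := ht.pos i
  have := ht.pos j
  have := ht.pos l
  rcases lt_trichotomy p 0 with hp0 | hp0 | hp0
  · have hq0 : 0 < q := by nlinarith
    left
    refine eventually_of_mem self_mem_nhdsWithin fun b hb => ?_
    have hv' : v i = (-p / q) • v j + (1 / q) • v l := by
      rw [hv]; funext k; simp; field_simp; ring
    have h := hb l j i (-p / q) (1 / q) hlj (div_pos (neg_pos.2 hp0) hq0) (by positivity) hv'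
      (by field_simp; linarith)
    have h' := mul_lt_mul_of_pos_left h hq0
    field_simp at h'
    linarith
  · rw [hp0] at hv hal
    simp at hv hal
    have hq0 : 0 < q := by nlinarith
    exact absurd (ht.dist i l q hq0 hv) hli
  rcases lt_trichotomy q 0 with hq0 | hq0 | hq0
  · left
    refine eventually_of_mem self_mem_nhdsWithin fun b hb => ?_
    have hv' : v j = (1 / p) • v l + (-q / p) • v i := by
      rw [hv]; funext k; simp; field_simp; ring
    have h := hb i l j (1 / p) (-q / p) (Ne.symm hli) (by positivity)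
      (div_pos (neg_pos.2 hq0) hp0) hv' (by field_simp; linarith)
    have h' := mul_lt_mul_of_pos_left h hp0
    field_simp at h'
    linarith
  · rw [hq0] at hv hal
    simp at hv hal
    exact absurd (ht.dist j l p hp0 hv) hlj
  · right
    refine eventually_of_mem self_mem_nhdsWithin fun b hb => ?_
    have := hb i j l p q (Ne.symm hji) hp0 hq0 hv hal
    linarith

theorem Tight.eventually_reg_slice (ht : Tight v a) (i : ι) :
    ∀ᶠ b in 𝓝[dom v a] a, Reg (sw v i) (sc v i b) := by
  refine eventually_all.2 fun j => ?_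
  by_cases hj0 : sw v i j = 0
  · have h0 : sc v i a j ≠ 0 :=
      ((ht.eventually_regA i).2 (ht.ne_zero i) j).resolve_left (not_not.2 hj0)
    exact ((((continuous_apply j).comp (continuous_sc v i)).tendsto a).eventually_ne h0
      |>.filter_mono nhdsWithin_le_nhds).mono fun b h => ⟨fun _ => h, fun h' => absurd hj0 h'⟩
  · have : ∀ᶠ b in 𝓝[dom v a] a, Nice (sw (sw v i) j) (sc (sw v i) j (sc v i b)) := by
      refine eventually_all.2 fun l => ?_
      rcases eq_or_ne l j with rfl | hlj
      · exact .of_forall fun b => .inr (by simp [sc])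
      by_cases h1 : sw (sw v i) j l = 0
      · rcases ht.sign hj0 hlj h1 with h | h
        · exact h.mono fun b hb => .inr hb.ne'
        · exact h.mono fun b hb => .inr hb.ne
      · exact .of_forall fun b => .inl h1
    exact this.mono fun b h => ⟨fun h' => absurd h' hj0, fun _ => h⟩

theorem Tight.exists_coef_lim (ht : Tight v a) (i j : ι) :
    ∃ c, Tendsto (fun b => coef v b i j) (𝓝[dom v a] a) (𝓝 c) := by
  by_cases hj0 : sw v i j = 0
  · exact ⟨0, tendsto_const_nhds.congr fun b => by simp [coef, part, hj0]⟩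
  have hex : ∀ l, ∃ σ : ℝ, σ ≠ 0 ∧ (sw (sw v i) j l = 0 →
      ∀ᶠ b in 𝓝[dom v a] a, (0 ≤ sc (sw v i) j (sc v i b) l ↔ 0 ≤ σ)) := by
    intro l
    by_cases h1 : sw (sw v i) j l = 0
    · rcases eq_or_ne l j with rfl | hlj
      · exact ⟨1, one_ne_zero, fun _ => .of_forall fun b => by simp [sc]⟩
      rcases ht.sign hj0 hlj h1 with h | h
      · exact ⟨1, one_ne_zero, fun _ => h.mono fun b hb => iff_of_true hb.le zero_le_one⟩
      · exact ⟨-1, by norm_num, fun _ => h.mono fun b hb =>
          iff_of_false hb.not_ge (by norm_num)⟩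
    · exact ⟨1, one_ne_zero, fun h => absurd h h1⟩
  choose σ hσ hσev using hex
  set e : (ι → ℝ) → ι → ℝ := fun b l =>
    if sw (sw v i) j l = 0 then σ l else sc (sw v i) j (sc v i b) l with he
  have hec : Continuous e := continuous_pi fun l => by
    by_cases h1 : sw (sw v i) j l = 0
    · simp only [he, h1, if_true]; exact continuous_const
    · simp only [he, h1, if_false]
      exact (continuous_apply l).comp ((continuous_sc (sw v i) j).comp (continuous_sc v i))
  have hnice : Nice (sw (sw v i) j) (e a) := fun l => by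
    by_cases h1 : sw (sw v i) j l = 0
    · exact .inr (by simp [he, h1, hσ l])
    · exact .inl h1
  have hev : ∀ᶠ b in 𝓝[dom v a] a, U (sw (sw v i) j) (e b)
      = U (sw (sw v i) j) (sc (sw v i) j (sc v i b)) := by
    have : ∀ᶠ b in 𝓝[dom v a] a, ∀ l, sw (sw v i) j l = 0 →
        (0 ≤ sc (sw v i) j (sc v i b) l ↔ 0 ≤ σ l) := by
      refine eventually_all.2 fun l => ?_
      by_cases h1 : sw (sw v i) j l = 0
      · exact (hσev l h1).mono fun b hb _ => hb
      · exact .of_forall fun b h => absurd h h1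
    refine this.mono fun b hb => ?_
    unfold U; congr 2; ext y
    refine forall_congr' fun l => ?_
    by_cases h1 : sw (sw v i) j l = 0
    · simp [he, h1, hb l h1]
    · simp [he, h1]
  have hlim := ((continuousAt_U (bdd_slice hj0 (bdd_slice (ht.ne_zero i) ht.toBdd)) hnice).comp
    hec.continuousAt).tendsto.mono_left (nhdsWithin_le_nhds (s := dom v a))
  refine ⟨_, ((hlim.congr' hev).const_mul (|v i (piv v i)|⁻¹ * |sw v i j (piv (sw v i) j)|⁻¹)).congr
    fun b => ?_⟩
  simp [coef, part, hj0, mul_assoc]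

theorem Tight.exists_second_lim (ht : Tight v a) (g : ι → ℝ) :
    ∃ K, Tendsto (fun b => ∑ i, dpart v b i g * g i) (𝓝[dom v a] a) (𝓝 K) := by
  choose c hc using fun i j => ht.exists_coef_lim i j
  refine ⟨∑ i, (∑ j, c i j * (if j = i then 0 else g j - v j (piv v i) / v i (piv v i) * g i)) * g i,
    tendsto_finsetSum _ fun i _ => Tendsto.mul_const _ ?_⟩
  simp only [dpart_apply]
  exact tendsto_finsetSum _ fun j _ => (hc i j).mul_const _

theorem hasFDerivAt_part' (hb : Bdd v) {b : ι → ℝ} {i : ι} (hi : v i ≠ 0)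
    (hr : Reg (sw v i) (sc v i b)) : HasFDerivAt (part v i) (dpart v b i) b := by
  have h1 : HasFDerivAt (sc v i) (dsc v i) b := by
    refine hasFDerivAt_pi'' fun j => ?_
    unfold dsc
    rw [ContinuousLinearMap.proj_pi]
    by_cases hj : j = i
    · simp only [sc, if_pos hj]
      exact hasFDerivAt_const _ _
    · simp only [sc, if_neg hj]
      exact (hasFDerivAt_apply j b).sub ((hasFDerivAt_apply i b).const_mul _)
  have h2 := (hasFDerivAt_U (bdd_slice hi hb) hr).comp b h1
  have h3 := h2.const_mul |v i (piv v i)|⁻¹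
  rw [show part v i = fun c => |v i (piv v i)|⁻¹ * U (sw v i) (sc v i c) from
    funext fun _ => if_neg hi]
  exact h3

/-- A one-sided second-order lower bound. -/
theorem second_lower {u u' : ℝ → ℝ} {u'' : ℝ → ℝ} {t k : ℝ} (ht : 0 ≤ t)
    (hu : ∀ s ∈ Icc 0 t, HasDerivAt u (u' s) s) (hu' : ∀ s ∈ Icc 0 t, HasDerivAt u' (u'' s) s)
    (hk : ∀ s ∈ Icc 0 t, k ≤ u'' s) : u 0 + t * u' 0 + k / 2 * t ^ 2 ≤ u t := by
  have h1 : MonotoneOn (fun s => u' s - k * s) (Icc 0 t) := by
    refine monotoneOn_of_hasDerivWithinAt_nonneg (convex_Icc 0 t)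
      (fun s hs => ((hu' s hs).sub ((hasDerivAt_id s).const_mul k)).continuousAt.continuousWithinAt)
      (fun s hs => ((hu' s (interior_subset hs)).sub
        ((hasDerivAt_id s).const_mul k)).hasDerivWithinAt) fun s hs => ?_
    have := hk s (interior_subset hs)
    linarith
  have h2 : MonotoneOn (fun s => u s - u' 0 * s - k / 2 * s ^ 2) (Icc 0 t) := by
    refine monotoneOn_of_hasDerivWithinAt_nonneg (convex_Icc 0 t)
      (fun s hs => (((hu s hs).sub ((hasDerivAt_id s).const_mul (u' 0))).sub
        ((hasDerivAt_pow 2 s).const_mul (k / 2))).continuousAt.continuousWithinAt)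
      (fun s hs => (((hu s (interior_subset hs)).sub ((hasDerivAt_id s).const_mul (u' 0))).sub
        ((hasDerivAt_pow 2 s).const_mul (k / 2))).hasDerivWithinAt) fun s hs => ?_
    have hs' := interior_subset hs
    have := h1 (left_mem_Icc.2 ht) hs' hs'.1
    simp at this ⊢
    linarith
  have := h2 (left_mem_Icc.2 ht) (right_mem_Icc.2 ht) ht
  simp at this
  linarith

/-- The second-order expansion of the volume, with the limiting coefficient. -/
theorem Tight.expansion (ht : Tight v a) {g : ι → ℝ}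
    (hg : ∀ i j l (p q : ℝ), 0 < p → 0 < q → v l = p • v j + q • v i →
      a l = p * a j + q * a i → g l ≤ p * g j + q * g i)
    {K : ℝ} (hK : Tendsto (fun b => ∑ i, dpart v b i g * g i) (𝓝[dom v a] a) (𝓝 K)) :
    (fun t => U v (fun i => a i + t * g i) - U v a - t * (∑ i, part v i a * g i) - K / 2 * t ^ 2)
      =o[𝓝[Ici 0] (0 : ℝ)] fun t => t ^ 2 := by
  refine Asymptotics.isLittleO_iff.2 fun η hη => ?_
  have hev : ∀ᶠ b in 𝓝[dom v a] a,
      |(∑ i, dpart v b i g * g i) - K| ≤ η ∧ Reg v b ∧ ∀ i, Reg (sw v i) (sc v i b) :=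
    ((Metric.tendsto_nhds.1 hK η hη).mono fun b hb => hb.le).and
      (((eventually_reg ht.eventually_regA).filter_mono nhdsWithin_le_nhds).and
        (eventually_all.2 ht.eventually_reg_slice))
  obtain ⟨δ₁, hδ₁, hδ₁P⟩ := Metric.mem_nhdsWithin_iff.1 hev
  obtain ⟨δ₂, hδ₂, hδ₂P⟩ := Metric.eventually_nhds_iff.1 (eventually_reg ht.eventually_regA)
  set δ := min δ₁ δ₂
  have hδ : 0 < δ := lt_min hδ₁ hδ₂
  have hδP := (inter_subset_inter_left (dom v a) (Metric.ball_subset_ball (min_le_left δ₁ δ₂))).trans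
    hδ₁P
  set w := len v
  set τ := δ / (2 * (‖g‖ + ‖w‖ + 1))
  have hτ : 0 < τ := by positivity
  refine eventually_of_mem (inter_mem_nhdsWithin _ (Metric.ball_mem_nhds (0 : ℝ) hτ)) fun t htt => ?_
  obtain ⟨ht0, htτ⟩ := htt
  rw [Metric.mem_ball, dist_zero_right, Real.norm_eq_abs, abs_of_nonneg ht0] at htτ
  have hmem : ∀ ε ∈ Ioo 0 τ, ∀ s ∈ Icc 0 t,
      (fun i => a i + ε * w i + s * g i) ∈ Metric.ball a δ ∩ dom v a := by
    intro ε hε s hs
    refine ⟨?_, ht.perturb_mem hg hε.1 hs.1⟩
    have heq : (fun i => a i + ε * w i + s * g i) - a = ε • w + s • g := by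
      funext i; simp; ring
    rw [Metric.mem_ball, dist_eq_norm, heq]
    refine lt_of_le_of_lt (norm_add_le _ _) ?_
    rw [norm_smul, norm_smul, Real.norm_eq_abs, Real.norm_eq_abs, abs_of_pos hε.1,
      abs_of_nonneg hs.1]
    have h1 : τ * (2 * (‖g‖ + ‖w‖ + 1)) = δ := by simp only [τ]; field_simp
    have h2 := mul_le_mul_of_nonneg_right hε.2.le (norm_nonneg w)
    have h3 := mul_le_mul_of_nonneg_right (hs.2.trans htτ.le) (norm_nonneg g)
    nlinarith [norm_nonneg g, norm_nonneg w]
  have hbound : ∀ ε ∈ Ioo 0 τ,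
      |U v (fun i => a i + ε * w i + t * g i) - U v (fun i => a i + ε * w i)
        - t * (∑ i, part v i (fun i => a i + ε * w i) * g i) - K / 2 * t ^ 2| ≤ η / 2 * t ^ 2 := by
    intro ε hε
    set b : ℝ → ι → ℝ := fun s i => a i + ε * w i + s * g i with hb
    have hbd : ∀ s, HasDerivAt b g s := fun s => hasDerivAt_pi.2 fun i =>
      (((hasDerivAt_id s).mul_const (g i)).const_add (a i + ε * w i)).congr_deriv (one_mul _)
    have hu : ∀ s ∈ Icc 0 t, HasDerivAt (fun s => U v (b s)) (∑ i, part v i (b s) * g i) s := by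
      intro s hs
      have := (hasFDerivAt_U ht.toBdd (hδP (hmem ε hε s hs)).2.1).comp_hasDerivAt s (hbd s)
      rw [DU_apply] at this
      exact this
    have hu' : ∀ s ∈ Icc 0 t, HasDerivAt (fun s => ∑ i, part v i (b s) * g i)
        (∑ i, dpart v (b s) i g * g i) s := fun s hs =>
      HasDerivAt.fun_sum fun i _ => ((hasFDerivAt_part' ht.toBdd (ht.ne_zero i)
        ((hδP (hmem ε hε s hs)).2.2 i)).comp_hasDerivAt s (hbd s)).mul_const (g i)
    have hk := fun s hs => abs_le.1 (hδP (hmem ε hε s hs)).1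
    have hlo := second_lower (k := K - η) ht0 hu hu' fun s hs => by linarith [(hk s hs).1]
    have hhi := second_lower (k := -(K + η)) ht0 (fun s hs => (hu s hs).neg)
      (fun s hs => (hu' s hs).neg) fun s hs => by linarith [(hk s hs).2]
    have hb0 : b 0 = fun i => a i + ε * w i := by simp [hb]
    rw [hb0] at hlo
    simp only [Pi.neg_apply, hb0] at hhi
    rw [abs_le]
    constructor <;> linarith
  have hU : ∀ c : ι → ℝ, Reg v c → Tendsto (fun ε : ℝ => U v (fun i => c i + ε * w i))
      (𝓝[>] 0) (𝓝 (U v c)) := by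
    intro c hc
    have h0 : ContinuousAt (U v) (fun i => c i + (0 : ℝ) * w i) := by
      simpa using (hasFDerivAt_U ht.toBdd hc).continuousAt
    simpa [Function.comp_def] using (h0.comp (f := fun ε : ℝ => fun i => c i + ε * w i) (x := (0 : ℝ))
      (by fun_prop)).tendsto.mono_left nhdsWithin_le_nhds
  have hregt : Reg v (fun i => a i + t * g i) := by
    refine hδ₂P (lt_of_lt_of_le ?_ (min_le_right δ₁ δ₂))
    have heq : (fun i => a i + t * g i) - a = t • g := by funext i; simp
    rw [dist_eq_norm, heq, norm_smul, Real.norm_eq_abs, abs_of_nonneg ht0]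
    have h1 : τ * (2 * (‖g‖ + ‖w‖ + 1)) = δ := by simp only [τ]; field_simp
    have h3 := mul_le_mul_of_nonneg_right htτ.le (norm_nonneg g)
    nlinarith [norm_nonneg g, norm_nonneg w]
  have hpart : ∀ i, Tendsto (fun ε : ℝ => part v i (fun i => a i + ε * w i)) (𝓝[>] 0)
      (𝓝 (part v i a)) := by
    intro i
    have h0 : ContinuousAt (part v i) (fun j => a j + (0 : ℝ) * w j) := by
      simpa using continuousAt_part ht.toBdd ht.eventually_regA i
    simpa [Function.comp_def] using (h0.comp (f := fun ε : ℝ => fun j => a j + ε * w j) (x := (0 : ℝ))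
      (by fun_prop)).tendsto.mono_left nhdsWithin_le_nhds
  have ht1 : Tendsto (fun ε : ℝ => U v (fun i => a i + ε * w i + t * g i)) (𝓝[>] 0)
      (𝓝 (U v (fun i => a i + t * g i))) :=
    (hU _ hregt).congr fun ε => congrArg (U v) (funext fun i => by ring)
  have hlim := ((ht1.sub
    (hU a ht.eventually_regA)).sub
      ((tendsto_finsetSum Finset.univ fun i _ => (hpart i).mul_const (g i)).const_mul t)).sub
    (tendsto_const_nhds (x := K / 2 * t ^ 2))
  have := le_of_tendsto hlim.abs (eventually_of_mem (Ioo_mem_nhdsGT hτ) hbound)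
  rw [Real.norm_eq_abs, Real.norm_eq_abs, abs_of_nonneg (sq_nonneg t)]
  nlinarith [sq_nonneg t]

end Vale.Agent.P227.Local
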