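import Mathlib

/-! # P227: the volume of a polytope as a function of the offsets -/

set_option linter.unusedSectionVars false

open Set MeasureTheory Filter Topology Function

namespace Vale.Agent.P227.Local

variable {ι : Type*} [Fintype ι] [DecidableEq ι]

/-- The feasible set. -/
def poly {n : ℕ} (w : ι → Fin n → ℝ) (c : ι → ℝ) : Set (Fin n → ℝ) :=
  {y | ∀ j, ∑ k, w j k * y k ≤ c j}

/-- Its volume. -/
noncomputable def U {n : ℕ} (w : ι → Fin n → ℝ) (c : ι → ℝ) : ℝ := (volume (poly w c)).toReal

/-- Uniform boundedness of the feasible sets. -/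
def Bdd {n : ℕ} (w : ι → Fin n → ℝ) : Prop :=
  ∀ R, ∃ C, ∀ c : ι → ℝ, ‖c‖ ≤ R → ∀ y ∈ poly w c, ‖y‖ ≤ C

/-- No constraint degenerates. -/
def Nice {n : ℕ} (w : ι → Fin n → ℝ) (c : ι → ℝ) : Prop := ∀ j, w j ≠ 0 ∨ c j ≠ 0

variable {n m : ℕ}

theorem poly_closed (w : ι → Fin n → ℝ) (c : ι → ℝ) : IsClosed (poly w c) := by
  simp only [poly, ofPred_forall]
  exact isClosed_iInter fun j => isClosed_le (by fun_prop) continuous_const

theorem poly_finite {w : ι → Fin n → ℝ} (hb : Bdd w) (c : ι → ℝ) :
    volume (poly w c) ≠ ⊤ := by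
  obtain ⟨C, hC⟩ := hb ‖c‖
  exact ((measure_mono fun y hy => mem_closedBall_zero_iff.2 (hC c le_rfl y hy)).trans_lt
    measure_closedBall_lt_top).ne

theorem null_eq (u : Fin n → ℝ) (r : ℝ) (h : u ≠ 0 ∨ r ≠ 0) :
    volume {y : Fin n → ℝ | ∑ k, u k * y k = r} = 0 := by
  by_cases hu : u = 0
  · have hr : r ≠ 0 := h.resolve_left (not_not.2 hu)
    simp [hu, Ne.symm hr]
  obtain ⟨k, hk⟩ : ∃ k, u k ≠ 0 := by
    by_contra hc; push Not at hc; exact hu (funext hc)
  set y₀ : Fin n → ℝ := Pi.single k (r / u k)
  have hy₀ : ∑ l, u l * y₀ l = r := by simp [y₀, Pi.single_apply]; field_simp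
  let f : (Fin n → ℝ) →ₗ[ℝ] ℝ := ∑ l, u l • LinearMap.proj l
  have hf : ∀ y, f y = ∑ l, u l * y l := fun y => by simp [f]
  have : {y : Fin n → ℝ | ∑ l, u l * y l = r} = (· + (-y₀)) ⁻¹' (LinearMap.ker f : Set _) := by
    ext y; simp [hf, mul_add, mul_neg, Finset.sum_add_distrib, hy₀, add_neg_eq_zero]
  rw [this, measure_preimage_add_right]
  refine Measure.addHaar_submodule volume _ fun htop => hk ?_
  have : f (Pi.single k 1) = 0 := by
    have h1 : Pi.single k 1 ∈ LinearMap.ker f := htop ▸ Submodule.mem_top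
    simpa using h1
  simpa [hf, Pi.single_apply] using this

theorem continuousAt_U {w : ι → Fin n → ℝ} (hb : Bdd w) {c : ι → ℝ} (hn : Nice w c) :
    ContinuousAt (U w) c := by
  obtain ⟨C, hC⟩ := hb (‖c‖ + 1)
  have heq : ∀ c', U w c' = ∫ y, (poly w c').indicator (fun _ => (1 : ℝ)) y := fun c' => by
    rw [integral_indicator_const _ (poly_closed w c').measurableSet, smul_eq_mul, mul_one]; rfl
  rw [show U w = _ from funext heq]
  have hnear : ∀ᶠ c' in 𝓝 c, ‖c'‖ ≤ ‖c‖ + 1 :=
    (continuous_norm.tendsto c).eventually_le_const (lt_add_one _)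
  refine continuousAt_of_dominated
    (bound := (Metric.closedBall (0 : Fin n → ℝ) C).indicator fun _ => (1 : ℝ))
    (.of_forall fun c' =>
      (measurable_const.indicator (poly_closed w c').measurableSet).aestronglyMeasurable)
    (hnear.mono fun c' hc' => .of_forall fun y => ?_) ?_ ?_
  · by_cases hy : y ∈ poly w c'
    · rw [indicator_of_mem hy, indicator_of_mem (mem_closedBall_zero_iff.2 (hC c' hc' y hy))]
      simp
    · rw [indicator_of_notMem hy, norm_zero]
      exact indicator_nonneg (fun _ _ => zero_le_one) _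
  · exact (integrableOn_const measure_closedBall_lt_top.ne).integrable_indicator
      measurableSet_closedBall
  · have : ∀ᵐ y : Fin n → ℝ, ∀ j, ∑ k, w j k * y k ≠ c j :=
      ae_all_iff.2 fun j => by
        refine measure_eq_zero_iff_ae_notMem.1 (null_eq (w j) (c j) (hn j))
    filter_upwards [this] with y hy
    refine ContinuousAt.congr (continuousAt_const (y := (poly w c).indicator (fun _ => (1:ℝ)) y)) ?_
    have h1 : ∀ᶠ c' in 𝓝 c, ∀ j, (∑ k, w j k * y k ≤ c' j ↔ ∑ k, w j k * y k ≤ c j) := by
      refine eventually_all.2 fun j => ?_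
      rcases lt_or_gt_of_ne (hy j) with h | h
      · exact ((continuous_apply j).tendsto c |>.eventually (eventually_gt_nhds h)).mono
          fun c' hc' => iff_of_true hc'.le h.le
      · exact ((continuous_apply j).tendsto c |>.eventually (eventually_lt_nhds h)).mono
          fun c' hc' => iff_of_false (not_le.2 hc') (not_le.2 h)
    filter_upwards [h1] with c' hc'
    have : (y ∈ poly w c ↔ y ∈ poly w c') := forall_congr' fun j => (hc' j).symm
    by_cases h : y ∈ poly w c
    · simp [h, this.1 h]
    · simp [h, mt this.2 h]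

/-- A pivot coordinate. -/
noncomputable def piv (w : ι → Fin (m + 1) → ℝ) (i : ι) : Fin (m + 1) :=
  Classical.epsilon fun k => w i k ≠ 0

theorem piv_spec {w : ι → Fin (m + 1) → ℝ} {i : ι} (h : w i ≠ 0) : w i (piv w i) ≠ 0 := by
  refine Classical.epsilon_spec (p := fun k => w i k ≠ 0) ?_
  by_contra hc; push Not at hc; exact h (funext hc)

/-- Normals on the slice `i`. -/
noncomputable def sw (w : ι → Fin (m + 1) → ℝ) (i j : ι) : Fin m → ℝ :=
  if j = i then 0 else fun l => w j ((piv w i).succAbove l) -
    w j (piv w i) / w i (piv w i) * w i ((piv w i).succAbove l)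

/-- Offsets on the slice `i`. -/
noncomputable def sc (w : ι → Fin (m + 1) → ℝ) (i : ι) (c : ι → ℝ) (j : ι) : ℝ :=
  if j = i then 1 else c j - w j (piv w i) / w i (piv w i) * c i

/-- The point of the slice `i` over `y`. -/
noncomputable def lift (w : ι → Fin (m + 1) → ℝ) (i : ι) (t : ℝ) (y : Fin m → ℝ) :
    Fin (m + 1) → ℝ :=
  (piv w i).insertNth
    ((t - ∑ l, w i ((piv w i).succAbove l) * y l) / w i (piv w i)) y

theorem sum_insertNth (u : Fin (m + 1) → ℝ) (k : Fin (m + 1)) (s : ℝ) (y : Fin m → ℝ) :
    ∑ l, u l * (k.insertNth s y : Fin (m + 1) → ℝ) l = u k * s + ∑ l, u (k.succAbove l) * y l := by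
  rw [Fin.sum_univ_succAbove _ k]; simp

theorem sum_lift_self {w : ι → Fin (m + 1) → ℝ} {i : ι} (h : w i ≠ 0) (t : ℝ) (y : Fin m → ℝ) :
    ∑ l, w i l * lift w i t y l = t := by
  have := piv_spec h
  rw [lift, sum_insertNth]; field_simp; ring

theorem sum_lift {w : ι → Fin (m + 1) → ℝ} {i j : ι} (h : w i ≠ 0) (hj : j ≠ i) (t : ℝ)
    (y : Fin m → ℝ) :
    ∑ l, w j l * lift w i t y l
      = (∑ l, sw w i j l * y l) + w j (piv w i) / w i (piv w i) * t := by
  have := piv_spec h
  rw [lift, sum_insertNth]
  simp only [sw, if_neg hj, sub_mul, Finset.sum_sub_distrib, mul_assoc, ← Finset.mul_sum]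
  field_simp; ring

theorem mem_slice {w : ι → Fin (m + 1) → ℝ} {i : ι} (h : w i ≠ 0) (c : ι → ℝ) (y : Fin m → ℝ) :
    y ∈ poly (sw w i) (sc w i c) ↔ lift w i (c i) y ∈ poly w c := by
  simp only [poly, mem_ofPred_eq]
  refine forall_congr' fun j => ?_
  by_cases hj : j = i
  · subst hj; simp [sw, sc, sum_lift_self h]
  · rw [sum_lift h hj, sc, if_neg hj]; constructor <;> intro hh <;> linarith

theorem bdd_slice {w : ι → Fin (m + 1) → ℝ} {i : ι} (h : w i ≠ 0) (hb : Bdd w) : Bdd (sw w i) := by
  intro R
  have hR : ∀ c : ι → ℝ, ‖c‖ ≤ R → ‖update c i 0‖ ≤ R := fun c hc => by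
    have hR0 : (0 : ℝ) ≤ R := (norm_nonneg _).trans hc
    refine (pi_norm_le_iff_of_nonneg hR0).2 fun j => ?_
    rcases eq_or_ne j i with rfl | hj
    · simpa using hR0
    · rw [update_of_ne hj]; exact (norm_le_pi_norm c j).trans hc
  obtain ⟨C, hC⟩ := hb R
  refine ⟨C, fun c hc y hy => ?_⟩
  have hy' : y ∈ poly (sw w i) (sc w i (update c i 0)) := fun j => by
    by_cases hj : j = i
    · simp [sw, sc, hj]
    · simpa [sc, hj] using hy j
  have h1 := hC _ (hR c hc) _ ((mem_slice h _ y).1 hy')
  refine le_trans ((pi_norm_le_iff_of_nonneg (norm_nonneg _)).2 fun l => ?_) h1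
  have := norm_le_pi_norm (lift w i ((update c i 0) i) y) ((piv w i).succAbove l)
  simpa [lift] using this

theorem continuous_sc (w : ι → Fin (m + 1) → ℝ) (i : ι) : Continuous (sc w i) := by
  refine continuous_pi fun j => ?_
  unfold sc; split <;> fun_prop

/-- The increment of the volume in one offset. -/
theorem vol_increment {w : ι → Fin (m + 1) → ℝ} (hb : Bdd w) {i : ι} (h : w i ≠ 0) (c : ι → ℝ)
    {r s : ℝ} (hrs : r ≤ s) :
    U w (update c i s) - U w (update c i r)
      = |w i (piv w i)|⁻¹ * ∫ t in r..s, U (sw w i) (sc w i (update c i t)) := by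
  set k := piv w i
  have hk : w i k ≠ 0 := piv_spec h
  set A := poly w (update c i s)
  set B := poly w (update c i r)
  have hsub : B ⊆ A := fun x hx j => (hx j).trans (by
    rcases eq_or_ne j i with rfl | hj <;> simp [*])
  set G : Set (ℝ × (Fin m → ℝ)) :=
    {q | q.1 ∈ Ioc r s ∧ q.2 ∈ poly (sw w i) (sc w i (update c i q.1))}
  have hG : MeasurableSet G := by
    refine MeasurableSet.inter (measurable_fst measurableSet_Ioc) ?_
    refine (?_ : IsClosed {q : ℝ × (Fin m → ℝ) |
      q.2 ∈ poly (sw w i) (sc w i (update c i q.1))}).measurableSet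
    have hset : {q : ℝ × (Fin m → ℝ) | q.2 ∈ poly (sw w i) (sc w i (update c i q.1))}
        = ⋂ j, {q : ℝ × (Fin m → ℝ) | ∑ l, sw w i j l * q.2 l ≤ sc w i (update c i q.1) j} := by
      ext q; simp [poly]
    rw [hset]
    refine isClosed_iInter fun j => isClosed_le (continuous_finsetSum _ fun l _ =>
      continuous_const.mul ((continuous_apply l).comp continuous_snd)) ?_
    exact (continuous_apply j).comp
      ((continuous_sc w i).comp (Continuous.update continuous_const i continuous_fst))
  set e := (MeasurableEquiv.piFinSuccAbove (fun _ : Fin (m + 1) => ℝ) k).symm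
  have he : MeasurePreserving e (volume.prod volume) volume :=
    (volume_preserving_piFinSuccAbove (fun _ : Fin (m + 1) => ℝ) k).symm _
  have heq : ∀ u y, e (u, y) = (k.insertNth u y : Fin (m + 1) → ℝ) := fun u y => rfl
  have hmem : ∀ u y, e (u, y) ∈ A \ B ↔
      (w i k * u + ∑ l, w i (k.succAbove l) * y l, y) ∈ G := by
    intro u y
    set t := w i k * u + ∑ l, w i (k.succAbove l) * y l with ht
    have hl : lift w i t y = e (u, y) := by
      rw [heq, lift]; congr 1
      have := piv_spec h
      simp only [ht, k]; field_simp; ring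
    have hc : ∀ q, (e (u, y) ∈ poly w (update c i q)) ↔
        (t ≤ q ∧ ∀ j, j ≠ i → ∑ l, w j l * lift w i t y l ≤ c j) := by
      intro q
      rw [← hl]
      constructor
      · intro hq
        exact ⟨by simpa [sum_lift_self h] using hq i, fun j hj => by simpa [hj] using hq j⟩
      · rintro ⟨h1, h2⟩ j
        rcases eq_or_ne j i with rfl | hj
        · simpa [sum_lift_self h] using h1
        · simpa [hj] using h2 j hj
    have hs : y ∈ poly (sw w i) (sc w i (update c i t)) ↔
        ∀ j, j ≠ i → ∑ l, w j l * lift w i t y l ≤ c j := by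
      rw [mem_slice h, update_self]
      constructor
      · intro hq j hj; simpa [hj] using hq j
      · intro hq j
        rcases eq_or_ne j i with rfl | hj
        · simp [sum_lift_self h]
        · simpa [hj] using hq j hj
    show (e (u, y) ∈ poly w (update c i s) ∧ ¬ e (u, y) ∈ poly w (update c i r)) ↔
      (t ∈ Ioc r s ∧ y ∈ poly (sw w i) (sc w i (update c i t)))
    rw [hc, hc, hs, mem_Ioc, not_and]
    constructor
    · rintro ⟨⟨h1, h2⟩, h3⟩
      exact ⟨⟨not_le.1 fun hle => h3 hle h2, h1⟩, h2⟩
    · rintro ⟨⟨h1, h2⟩, h3⟩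
      exact ⟨⟨h2, h3⟩, fun hle => absurd hle (not_le.2 h1)⟩
  have hAB : MeasurableSet (A \ B) :=
    (poly_closed _ _).measurableSet.diff (poly_closed _ _).measurableSet
  have hvol : volume (A \ B)
      = ENNReal.ofReal |(w i k)⁻¹| * (volume.prod volume) G := by
    rw [← he.measure_preimage hAB.nullMeasurableSet,
      Measure.prod_apply_symm (e.measurable hAB), Measure.prod_apply_symm hG,
      ← lintegral_const_mul _ (measurable_measure_prodMk_right hG)]
    refine lintegral_congr fun y => ?_
    have : (fun u => (u, y)) ⁻¹' (e ⁻¹' (A \ B))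
        = (w i k * ·) ⁻¹' ((· + ∑ l, w i (k.succAbove l) * y l) ⁻¹' ((fun t => (t, y)) ⁻¹' G)) := by
      ext u; exact hmem u y
    rw [this, Real.volume_preimage_mul_left hk, measure_preimage_add_right]
  have hGt : ∀ t, volume (Prod.mk t ⁻¹' G) = (Ioc r s).indicator
      (fun t => volume (poly (sw w i) (sc w i (update c i t)))) t := by
    intro t
    by_cases ht : t ∈ Ioc r s
    · rw [indicator_of_mem ht]; congr 1; ext y; simp [G, mem_preimage, ht.1, ht.2]
    · have : Prod.mk t ⁻¹' G = ∅ := eq_empty_of_forall_notMem fun y hy => ht hy.1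
      simp [this, indicator_of_notMem ht]
  have hGm := measurable_measure_prodMk_left (ν := (volume : Measure (Fin m → ℝ))) hG
  have hGint : (∫ t in r..s, U (sw w i) (sc w i (update c i t)))
      = ((volume.prod volume) G).toReal := by
    rw [Measure.prod_apply hG, intervalIntegral.integral_of_le hrs,
      ← integral_toReal hGm.aemeasurable
        (.of_forall fun t => by
          rw [hGt t]
          exact (indicator_le_self _ _ t).trans_lt (poly_finite (bdd_slice h hb) _).lt_top)]
    rw [← integral_indicator measurableSet_Ioc]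
    refine integral_congr_ae (.of_forall fun t => ?_)
    simp only [hGt]
    by_cases ht : t ∈ Ioc r s <;> simp [ht, U]
  have h1 : U w (update c i s) - U w (update c i r) = (volume (A \ B)).toReal := by
    rw [measure_sdiff hsub (poly_closed _ _).measurableSet.nullMeasurableSet (poly_finite hb _),
      ENNReal.toReal_sub_of_le (measure_mono hsub) (poly_finite hb _)]
    rfl
  rw [h1, hvol, ENNReal.toReal_mul, hGint, ENNReal.toReal_ofReal (abs_nonneg _), abs_inv]

/-- Every slice is nondegenerate. -/
def Reg (w : ι → Fin (m + 1) → ℝ) (c : ι → ℝ) : Prop :=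
  ∀ i, (w i = 0 → c i ≠ 0) ∧ (w i ≠ 0 → Nice (sw w i) (sc w i c))

/-- The partial derivatives. -/
noncomputable def part (w : ι → Fin (m + 1) → ℝ) (i : ι) (c : ι → ℝ) : ℝ :=
  if w i = 0 then 0 else |w i (piv w i)|⁻¹ * U (sw w i) (sc w i c)

theorem part_nonneg (w : ι → Fin (m + 1) → ℝ) (i : ι) (c : ι → ℝ) : 0 ≤ part w i c := by
  unfold part U; split <;> positivity

theorem eventually_reg {w : ι → Fin (m + 1) → ℝ} {c : ι → ℝ} (hr : Reg w c) :
    ∀ᶠ c' in 𝓝 c, Reg w c' := by
  refine eventually_all.2 fun i => ?_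
  by_cases hi : w i = 0
  · exact (((continuous_apply i).tendsto c).eventually_ne ((hr i).1 hi)).mono
      fun c' h => ⟨fun _ => h, fun h' => absurd hi h'⟩
  · have : ∀ᶠ c' in 𝓝 c, Nice (sw w i) (sc w i c') := by
      refine eventually_all.2 fun j => ?_
      rcases (hr i).2 hi j with h | h
      · exact .of_forall fun _ => .inl h
      · exact ((((continuous_apply j).comp (continuous_sc w i)).tendsto c).eventually_ne h).mono
          fun c' h => .inr h
    exact this.mono fun c' h => ⟨fun h' => absurd h' hi, fun _ => h⟩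

theorem continuousAt_part {w : ι → Fin (m + 1) → ℝ} (hb : Bdd w) {c : ι → ℝ} (hr : Reg w c)
    (i : ι) : ContinuousAt (part w i) c := by
  by_cases hi : w i = 0
  · rw [show part w i = fun _ => 0 from funext fun _ => if_pos hi]; exact continuousAt_const
  · rw [show part w i = fun c => |w i (piv w i)|⁻¹ * U (sw w i) (sc w i c) from
      funext fun _ => if_neg hi]
    exact continuousAt_const.mul
      ((continuousAt_U (bdd_slice hi hb) ((hr i).2 hi)).comp (continuous_sc w i).continuousAt)

theorem increment {w : ι → Fin (m + 1) → ℝ} (hb : Bdd w) {i : ι} {x : ι → ℝ} {q : ℝ}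
    (h0 : w i = 0 → ∀ t ∈ uIcc (x i) q, t ≠ 0) :
    U w (update x i q) - U w x = ∫ t in (x i)..q, part w i (update x i t) := by
  by_cases hi : w i = 0
  · have : ∫ t in (x i)..q, part w i (update x i t) = 0 := by simp [part, hi]
    rw [this, sub_eq_zero]
    have hsign : (0 ≤ q ↔ 0 ≤ x i) := by
      constructor <;> intro hh <;> by_contra hc
      · exact h0 hi 0 (mem_uIcc.2 (.inl ⟨(not_le.1 hc).le, hh⟩)) rfl
      · exact h0 hi 0 (mem_uIcc.2 (.inr ⟨(not_le.1 hc).le, hh⟩)) rfl
    unfold U; congr 2; ext y
    refine forall_congr' fun j => ?_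
    rcases eq_or_ne j i with rfl | hj
    · simpa [hi] using hsign
    · simp [hj]
  · simp only [part, if_neg hi, intervalIntegral.integral_const_mul]
    rcases le_total (x i) q with h | h
    · rw [← vol_increment hb hi x h, update_eq_self]
    · rw [intervalIntegral.integral_symm, mul_neg, ← vol_increment hb hi x h, update_eq_self]
      ring

/-- The differential. -/
noncomputable def DU (w : ι → Fin (m + 1) → ℝ) (c : ι → ℝ) : (ι → ℝ) →L[ℝ] ℝ :=
  ∑ i, part w i c • ContinuousLinearMap.proj i

theorem DU_apply (w : ι → Fin (m + 1) → ℝ) (c h : ι → ℝ) :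
    DU w c h = ∑ i, part w i c * h i := by simp [DU]

/-- The volume is differentiable. -/
theorem hasFDerivAt_U {w : ι → Fin (m + 1) → ℝ} (hb : Bdd w) {c : ι → ℝ} (hr : Reg w c) :
    HasFDerivAt (U w) (DU w c) c := by
  refine .of_isLittleO (Asymptotics.isLittleO_iff.2 fun η hη => ?_)
  set η' := η / (Fintype.card ι + 1)
  have hη' : 0 < η' := by positivity
  have hev : ∀ᶠ x in 𝓝 c, (∀ i, |part w i x - part w i c| ≤ η') ∧ Reg w x := by
    refine (eventually_all.2 fun i => ?_).and (eventually_reg hr)
    exact ((Metric.tendsto_nhds.1 (continuousAt_part hb hr i)) η' hη').mono fun x hx => hx.le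
  obtain ⟨δ, hδ, hδP⟩ := Metric.eventually_nhds_iff.1 hev
  refine Metric.eventually_nhds_iff.2 ⟨δ, hδ, fun x hx => ?_⟩
  set g : Finset ι → ι → ℝ := fun S j => if j ∈ S then x j else c j
  have hdist : ∀ (S : Finset ι) (i : ι), i ∉ S → ∀ t ∈ uIcc (c i) (x i),
      dist (update (g S) i t) c < δ := by
    intro S i _ t ht
    refine lt_of_le_of_lt ((dist_pi_le_iff dist_nonneg).2 fun j => ?_) hx
    rcases eq_or_ne j i with rfl | hj
    · rw [update_self, Real.dist_eq]
      refine le_trans ?_ (dist_le_pi_dist x c j)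
      rw [Real.dist_eq]
      exact abs_sub_left_of_mem_uIcc ht
    · rw [update_of_ne hj]
      by_cases hjS : j ∈ S
      · simp only [g, hjS, if_true]; exact dist_le_pi_dist x c j
      · simp [g, hjS]
  have key : ∀ S : Finset ι,
      |U w (g S) - U w c - ∑ i ∈ S, part w i c * (x i - c i)| ≤ S.card * η' * ‖x - c‖ := by
    intro S
    induction S using Finset.induction_on with
    | empty => simp [g]
    | insert i S hi ih =>
      have hgi : g (insert i S) = update (g S) i (x i) := by
        funext j; rcases eq_or_ne j i with rfl | hj <;> simp [g, *]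
      have hci : g S i = c i := if_neg hi
      have hcont : ContinuousOn (fun t => part w i (update (g S) i t)) (uIcc (c i) (x i)) :=
        fun t ht => ((continuousAt_part hb (hδP (hdist S i hi t ht)).2 i).comp
          (Continuous.update continuous_const i continuous_id).continuousAt).continuousWithinAt
      have hinc := increment hb (i := i) (x := g S) (q := x i) fun hwi t ht => by
        rw [hci] at ht
        simpa using ((hδP (hdist S i hi t ht)).2 i).1 hwi
      rw [hci] at hinc
      have herr : |(∫ t in (c i)..(x i), part w i (update (g S) i t)) - part w i c * (x i - c i)|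
          ≤ η' * ‖x - c‖ := by
        rw [mul_comm (part w i c), ← smul_eq_mul, ← intervalIntegral.integral_const,
          ← intervalIntegral.integral_sub hcont.intervalIntegrable intervalIntegrable_const,
          ← Real.norm_eq_abs]
        refine (intervalIntegral.norm_integral_le_of_norm_le_const (C := η') fun t ht =>
          (hδP (hdist S i hi t (uIoc_subset_uIcc ht))).1 i).trans ?_
        exact mul_le_mul_of_nonneg_left (norm_le_pi_norm (x - c) i) hη'.le
      rw [Finset.sum_insert hi, Finset.card_insert_of_notMem hi, hgi]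
      calc _ = |(U w (g S) - U w c - ∑ i ∈ S, part w i c * (x i - c i))
            + ((∫ t in (c i)..(x i), part w i (update (g S) i t))
              - part w i c * (x i - c i))| := by rw [← hinc]; ring_nf
        _ ≤ _ := (abs_add_le _ _).trans (add_le_add ih herr)
        _ = _ := by push_cast; ring
  have h := key Finset.univ
  rw [show g Finset.univ = x from funext fun j => if_pos (Finset.mem_univ j)] at h
  rw [Real.norm_eq_abs, DU_apply]
  refine h.trans (mul_le_mul_of_nonneg_right ?_ (norm_nonneg _))
  rw [Finset.card_univ]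
  simp only [η']
  rw [mul_div, div_le_iff₀ (by positivity)]
  nlinarith

end Vale.Agent.P227.Local
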