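import Vale.Agent.P227.Local.Diff

/-! # P227: unconditional polytopes, second derivatives of the volume -/

set_option linter.unusedSectionVars false

open Set MeasureTheory Filter Topology Function

namespace Vale.Agent.P227.Local

variable {ι : Type*} [Fintype ι] [DecidableEq ι] {m : ℕ}

/-- An irredundant description of a bounded polytope, invariant under all coordinate sign changes. -/
structure Std (v : ι → Fin (m + 2) → ℝ) (a : ι → ℝ) : Prop where
  pos : ∀ i, 0 < a i
  flip : ∀ i k, ∃ j, v j = update (v i) k (-v i k) ∧ a j = a i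
  bdd : Bornology.IsBounded (poly v a)
  irr : ∀ i, ∃ x : Fin (m + 2) → ℝ,
    a i < ∑ k, v i k * x k ∧ ∀ j, j ≠ i → ∑ k, v j k * x k ≤ a j

variable {v : ι → Fin (m + 2) → ℝ} {a : ι → ℝ}

theorem bdd_of_bounded (hpos : ∀ i, 0 < a i) (hbounded : Bornology.IsBounded (poly v a)) :
    Bdd v := by
  intro R
  obtain ⟨C, hC⟩ := hbounded.exists_norm_le
  set s : ℝ := 1 + ∑ i, |R| / a i
  have hterm : ∀ i, 0 ≤ |R| / a i := fun i => div_nonneg (abs_nonneg _) (hpos i).le
  have hs0 : 0 < s := by
    have := Finset.sum_nonneg (s := Finset.univ) fun i _ => hterm i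
    linarith
  refine ⟨s * C, fun c hc y hy => ?_⟩
  have h1 : s⁻¹ • y ∈ poly v a := fun j => by
    have hj : c j ≤ s * a j := by
      have h3 : |R| / a j ≤ s := by
        have := Finset.single_le_sum (f := fun i => |R| / a i) (fun i _ => hterm i)
          (Finset.mem_univ j)
        linarith
      have := (div_le_iff₀ (hpos j)).1 h3
      have h4 : c j ≤ ‖c‖ := (le_abs_self _).trans (norm_le_pi_norm c j)
      linarith [le_abs_self R]
    rw [show ∑ k, v j k * (s⁻¹ • y) k = s⁻¹ * ∑ k, v j k * y k by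
      simp [Finset.mul_sum, mul_left_comm], inv_mul_le_iff₀ hs0]
    exact (hy j).trans hj
  have := hC _ h1
  rw [norm_smul, norm_inv, Real.norm_eq_abs, abs_of_pos hs0, inv_mul_le_iff₀ hs0] at this
  exact this

theorem Std.toBdd (hs : Std v a) : Bdd v := bdd_of_bounded hs.pos hs.bdd

theorem Std.ne_zero (hs : Std v a) (i : ι) : v i ≠ 0 := by
  intro h
  obtain ⟨x, hx, -⟩ := hs.irr i
  have := hs.pos i
  simp [h] at hx
  linarith

theorem Std.not_prop (hs : Std v a) {i j : ι} (hij : j ≠ i) {r : ℝ} (hr : 0 < r) :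
    v j ≠ r • v i := by
  intro h
  have hsum : ∀ x : Fin (m + 2) → ℝ, ∑ k, v j k * x k = r * ∑ k, v i k * x k := fun x => by
    simp [h, Finset.mul_sum, mul_assoc]
  obtain ⟨x, hx, hxo⟩ := hs.irr i
  obtain ⟨y, hy, hyo⟩ := hs.irr j
  have h1 := hxo j hij
  have h2 := hyo i hij.symm
  rw [hsum] at h1 hy
  nlinarith

theorem Std.inj (hs : Std v a) {i j : ι} (h : v i = v j) : i = j := by
  by_contra hne
  exact hs.not_prop (Ne.symm hne) one_pos (by rw [one_smul, h])

theorem sw_self (w : ι → Fin (m + 2) → ℝ) (i : ι) : sw w i i = 0 := if_pos rfl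

theorem sw_comb {n : ℕ} {w : ι → Fin (n + 1) → ℝ} {i j : ι} (hi : w i ≠ 0) (hj : j ≠ i)
    (h : sw w i j = 0) : w j = (w j (piv w i) / w i (piv w i)) • w i := by
  have := piv_spec hi
  funext l
  rcases eq_or_ne l (piv w i) with rfl | hl
  · simp; field_simp
  · obtain ⟨p, rfl⟩ := Fin.exists_succAbove_eq hl
    have := congrFun h p
    simp [sw, hj] at this
    simp; linarith

theorem Std.nice_slice (hs : Std v a) (i : ι) : Nice (sw v i) (sc v i a) := by
  intro j
  rcases eq_or_ne j i with rfl | hj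
  · exact .inr (by simp [sc])
  by_contra hc
  push Not at hc
  obtain ⟨h1, h2⟩ := hc
  set r := v j (piv v i) / v i (piv v i) with hr
  have h3 : a j = r * a i := by simp [sc, hj, ← hr] at h2; linarith
  have hr0 : 0 < r := pos_of_mul_pos_left (h3 ▸ hs.pos j) (hs.pos i).le
  exact hs.not_prop hj hr0 (sw_comb (hs.ne_zero i) hj h1)

theorem Std.not_comb (hs : Std v a) {i j l : ι} (hij : i ≠ j) (hil : i ≠ l) (hjl : j ≠ l)
    {p q : ℝ} (hv : v l = p • v j + q • v i) (ha : a l = p * a j + q * a i) : False := by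
  have hsum : ∀ x : Fin (m + 2) → ℝ,
      ∑ k, v l k * x k = p * ∑ k, v j k * x k + q * ∑ k, v i k * x k := fun x => by
    simp [hv, Finset.mul_sum, mul_assoc, add_mul, Finset.sum_add_distrib]
  have := hs.pos i
  have := hs.pos j
  have := hs.pos l
  rcases lt_or_ge p 0 with hp | hp
  · obtain ⟨x, hx, hxo⟩ := hs.irr i
    have h1 := hxo j hij.symm
    have h2 := hxo l hil.symm
    rw [hsum] at h2
    have hq : 0 < q := by nlinarith
    nlinarith [mul_le_mul_of_nonpos_left h1 hp.le, mul_lt_mul_of_pos_left hx hq]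
  rcases lt_or_ge q 0 with hq | hq
  · obtain ⟨x, hx, hxo⟩ := hs.irr j
    have h1 := hxo i hij
    have h2 := hxo l hjl.symm
    rw [hsum] at h2
    have hp' : 0 < p := by nlinarith
    nlinarith [mul_le_mul_of_nonpos_left h1 hq.le, mul_lt_mul_of_pos_left hx hp']
  obtain ⟨x, hx, hxo⟩ := hs.irr l
  have h1 := mul_le_mul_of_nonneg_left (hxo j hjl) hp
  have h2 := mul_le_mul_of_nonneg_left (hxo i hil) hq
  rw [hsum] at hx
  linarith

theorem Std.reg (hs : Std v a) : Reg v a := fun i =>
  ⟨fun h => absurd h (hs.ne_zero i), fun _ => hs.nice_slice i⟩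

theorem Std.reg_slice (hs : Std v a) (i : ι) : Reg (sw v i) (sc v i a) := by
  intro j
  refine ⟨fun h => (hs.nice_slice i j).resolve_left (not_not.2 h), fun hj0 l => ?_⟩
  have hji : j ≠ i := fun h => hj0 (h ▸ sw_self v i)
  rcases eq_or_ne l j with rfl | hlj
  · exact .inr (by simp [sc])
  by_contra hc
  push Not at hc
  obtain ⟨h1, h2⟩ := hc
  have hcomb := sw_comb hj0 hlj h1
  set p := sw v i l (piv (sw v i) j) / sw v i j (piv (sw v i) j) with hp
  have h3 : sc v i a l = p * sc v i a j := by
    have : sc (sw v i) j (sc v i a) l = sc v i a l - p * sc v i a j := if_neg hlj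
    linarith
  rcases eq_or_ne l i with rfl | hli
  · rw [sw_self] at hcomb
    have : p = 0 := (smul_eq_zero.1 hcomb.symm).resolve_right hj0
    simp [sc, this] at h3
  have hi := hs.ne_zero i
  have hpi := piv_spec hi
  refine hs.not_comb hji.symm hli.symm hlj.symm (p := p)
    (q := v l (piv v i) / v i (piv v i) - p * (v j (piv v i) / v i (piv v i))) ?_ ?_
  · funext k
    rcases eq_or_ne k (piv v i) with rfl | hk
    · simp; field_simp; ring
    · obtain ⟨k', rfl⟩ := Fin.exists_succAbove_eq hk
      have := congrFun hcomb k'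
      simp only [sw, if_neg hli, if_neg hji, Pi.smul_apply, smul_eq_mul] at this
      simp only [Pi.add_apply, Pi.smul_apply, smul_eq_mul]
      linarith
  · simp only [sc, if_neg hli, if_neg hji] at h3
    linarith

theorem Std.volume_pos (hs : Std v a) : 0 < U v a := by
  have hopen : IsOpen {y : Fin (m + 2) → ℝ | ∀ j, ∑ k, v j k * y k < a j} := by
    simp only [ofPred_forall]
    exact isOpen_iInter_of_finite fun j => isOpen_lt
      (continuous_finsetSum _ fun k _ => continuous_const.mul (continuous_apply k)) continuous_const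
  refine ENNReal.toReal_pos ?_ (poly_finite hs.toBdd a)
  exact ((hopen.measure_pos volume ⟨0, fun j => by simpa using hs.pos j⟩).trans_le
    (measure_mono fun y hy j => (hy j).le)).ne'

/-- The mixed second partial derivative, off the diagonal. -/
noncomputable def coef (v : ι → Fin (m + 2) → ℝ) (a : ι → ℝ) (i j : ι) : ℝ :=
  |v i (piv v i)|⁻¹ * part (sw v i) j (sc v i a)

theorem coef_nonneg (v : ι → Fin (m + 2) → ℝ) (a : ι → ℝ) (i j : ι) : 0 ≤ coef v a i j :=
  mul_nonneg (by positivity) (part_nonneg _ _ _)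

/-- The derivative of a slice offset. -/
noncomputable def dsc (v : ι → Fin (m + 2) → ℝ) (i : ι) : (ι → ℝ) →L[ℝ] (ι → ℝ) :=
  ContinuousLinearMap.pi fun j => if j = i then 0 else
    ContinuousLinearMap.proj j - (v j (piv v i) / v i (piv v i)) • ContinuousLinearMap.proj i

/-- The derivative of a partial derivative. -/
noncomputable def dpart (v : ι → Fin (m + 2) → ℝ) (a : ι → ℝ) (i : ι) : (ι → ℝ) →L[ℝ] ℝ :=
  |v i (piv v i)|⁻¹ • (DU (sw v i) (sc v i a)).comp (dsc v i)

theorem dpart_apply (v : ι → Fin (m + 2) → ℝ) (a : ι → ℝ) (i : ι) (h : ι → ℝ) :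
    dpart v a i h = ∑ j, coef v a i j *
      (if j = i then 0 else h j - v j (piv v i) / v i (piv v i) * h i) := by
  simp only [dpart, ContinuousLinearMap.smul_apply, ContinuousLinearMap.comp_apply, DU_apply,
    smul_eq_mul, Finset.mul_sum]
  refine Finset.sum_congr rfl fun j _ => ?_
  rw [coef, mul_assoc]
  congr 2
  unfold dsc
  by_cases hj : j = i <;> simp [hj]

theorem Std.hasFDerivAt_part (hs : Std v a) (i : ι) :
    HasFDerivAt (part v i) (dpart v a i) a := by
  have h1 : HasFDerivAt (sc v i) (dsc v i) a := by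
    refine hasFDerivAt_pi'' fun j => ?_
    unfold dsc
    rw [ContinuousLinearMap.proj_pi]
    by_cases hj : j = i
    · simp only [sc, if_pos hj]
      exact hasFDerivAt_const _ _
    · simp only [sc, if_neg hj]
      exact (hasFDerivAt_apply j a).sub ((hasFDerivAt_apply i a).const_mul _)
  have h2 := (hasFDerivAt_U (bdd_slice (hs.ne_zero i) hs.toBdd) (hs.reg_slice i)).comp a h1
  have h3 := h2.const_mul |v i (piv v i)|⁻¹
  rw [show part v i = fun c => |v i (piv v i)|⁻¹ * U (sw v i) (sc v i c) from
    funext fun _ => if_neg (hs.ne_zero i)]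
  exact h3

/-- Opposite strict signs of a coordinate kill the mixed derivative, off the mirror image. -/
theorem Std.coef_zero (hs : Std v a) {i j l : ι} {q : Fin (m + 2)}
    (hl : v l = update (v i) q (-v i q)) (hla : a l = a i)
    (hsign : v i q * v j q < 0) (hjl : j ≠ l) : coef v a i j = 0 := by
  have hi := hs.ne_zero i
  have hji : j ≠ i := fun h => by subst h; nlinarith [mul_self_nonneg (v j q)]
  have hiq : v i q ≠ 0 := fun h => by simp [h] at hsign
  have hli : l ≠ i := fun h => by
    subst h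
    have := congrFun hl q
    simp at this
    exact hiq (by linarith)
  by_cases hj0 : sw v i j = 0
  · simp [coef, part, hj0]
  obtain ⟨lj, hlj, hlja⟩ := hs.flip j q
  have hflip : ∀ (i' l' : ι), v l' = update (v i') q (-v i' q) → ∀ x : Fin (m + 2) → ℝ,
      ∑ k, v l' k * x k = (∑ k, v i' k * x k) - 2 * v i' q * x q := by
    intro i' l' h x
    rw [h, ← Finset.sum_erase_add _ _ (Finset.mem_univ q),
      ← Finset.sum_erase_add (Finset.univ) (fun k => v i' k * x k) (Finset.mem_univ q)]
    rw [Finset.sum_congr rfl (s₁ := Finset.univ.erase q)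
      (g := fun k => v i' k * x k) fun k hk => by rw [update_of_ne (Finset.ne_of_mem_erase hk)],
      update_self]
    ring
  have hnice := (hs.reg_slice i j).2 hj0
  have hsub : poly (sw (sw v i) j) (sc (sw v i) j (sc v i a)) ⊆
      {z | ∑ k, sw (sw v i) j l k * z k = sc (sw v i) j (sc v i a) l} := by
    intro z hz
    set y := lift (sw v i) j (sc v i a j) z
    have hy : y ∈ poly (sw v i) (sc v i a) := (mem_slice hj0 _ z).1 hz
    set x := lift v i (a i) y
    have hx : x ∈ poly v a := (mem_slice hi _ y).1 hy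
    have hxi : ∑ k, v i k * x k = a i := sum_lift_self hi _ _
    have hxj : ∑ k, v j k * x k = a j := by
      have h1 : ∑ k, sw v i j k * y k = sc v i a j := sum_lift_self hj0 _ _
      rw [sum_lift hi hji, h1, sc, if_neg hji]
      ring
    have h1 : 0 ≤ v i q * x q := by
      have := hx l
      rw [hflip i l hl, hxi, hla] at this
      linarith
    have h2 : 0 ≤ v j q * x q := by
      have := hx lj
      rw [hflip j lj hlj, hxj, hlja] at this
      linarith
    have hxq : x q = 0 := by
      by_contra hne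
      have := mul_nonneg h1 h2
      nlinarith [mul_self_pos.2 hne]
    have hxl : ∑ k, v l k * x k = a l := by rw [hflip i l hl, hxi, hxq, hla]; ring
    have hyl : ∑ k, sw v i l k * y k = sc v i a l := by
      rw [sum_lift hi hli] at hxl
      rw [sc, if_neg hli]
      linarith
    rw [sum_lift hj0 (Ne.symm hjl)] at hyl
    rw [mem_ofPred_eq, sc, if_neg (Ne.symm hjl)]
    linarith
  have hU : U (sw (sw v i) j) (sc (sw v i) j (sc v i a)) = 0 := by
    rw [U, measure_mono_null hsub (null_eq _ _ (hnice l)), ENNReal.toReal_zero]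
  simp [coef, part, hj0, hU]

/-- The derivative of the volume along a curve of offsets. -/
theorem hasDerivAt_curve (hs : Std v a) {b b' : ℝ → ι → ℝ} {b'' : ι → ℝ} (hb0 : b 0 = a)
    (hb : ∀ᶠ t in 𝓝 0, HasDerivAt b (b' t) t) (hb' : HasDerivAt b' b'' 0) :
    (∀ᶠ t in 𝓝 0, HasDerivAt (fun t => U v (b t)) (∑ i, part v i (b t) * b' t i) t) ∧
      HasDerivAt (fun t => ∑ i, part v i (b t) * b' t i)
        (∑ i, (dpart v a i (b' 0) * b' 0 i + part v i a * b'' i)) 0 := by
  have hcont : Tendsto b (𝓝 0) (𝓝 a) := hb0 ▸ hb.self_of_nhds.continuousAt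
  refine ⟨?_, HasDerivAt.fun_sum fun i _ => ?_⟩
  · filter_upwards [hb, hcont.eventually (eventually_reg hs.reg)] with t ht hreg
    have := (hasFDerivAt_U hs.toBdd hreg).comp_hasDerivAt t ht
    rw [DU_apply] at this
    exact this
  · have h1 : HasDerivAt (fun t => part v i (b t)) (dpart v a i (b' 0)) 0 := by
      have h0 : HasFDerivAt (part v i) (dpart v a i) (b 0) := by
        rw [hb0]; exact hs.hasFDerivAt_part i
      exact h0.comp_hasDerivAt 0 hb.self_of_nhds
    have h2 := h1.mul ((hasDerivAt_pi.1 hb') i)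
    rw [hb0] at h2
    exact h2

end Vale.Agent.P227.Local
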