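import Vale.Agent.P227.Local.Second

/-! # P227: the local inequality over a finite set of directions -/

open MeasureTheory Filter Topology Function Asymptotics

namespace Vale.Agent.P227.Local

theorem local_finite {ι : Type} [Fintype ι] {n : ℕ} (hn : 2 ≤ n)
    (v : ι → Fin n → ℝ) (a g : ι → ℝ) (ha : ∀ i, 0 < a i)
    (hflip : ∀ i k, ∃ j, v j = update (v i) k (-v i k) ∧ a j = a i)
    (hbdd : Bornology.IsBounded {x : Fin n → ℝ | ∀ i, ∑ k, v i k * x k ≤ a i})
    (htight : ∀ i, ∃ x : Fin n → ℝ,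
      (∀ j, ∑ k, v j k * x k ≤ a j) ∧ ∑ k, v i k * x k = a i)
    (hdist : ∀ i j (r : ℝ), 0 < r → v j = r • v i → j = i)
    (heven : ∀ i j, v j = -v i → g j = g i)
    (hconv : ∀ i j l (p q : ℝ), 0 < p → 0 < q → v l = p • v j + q • v i →
      a l = p * a j + q * a i → g l ≤ p * g j + q * g i)
    (lam : ℝ) (h0 : 0 ≤ lam) (h1 : lam ≤ 1) (η : ℝ) (hη : 0 < η) :
    ∀ᶠ t in 𝓝[Set.Ici 0] (0 : ℝ),
      (volume {x : Fin n → ℝ | ∀ i, ∑ k, v i k * x k ≤ a i}).toReal ^ (1 - lam)
          * (volume {x : Fin n → ℝ | ∀ i, ∑ k, v i k * x k ≤ a i + t * g i}).toReal ^ lam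
        ≤ (volume {x : Fin n → ℝ | ∀ i,
            ∑ k, v i k * x k ≤ a i ^ (1 - lam) * (a i + t * g i) ^ lam}).toReal + η * t ^ 2 := by
  classical
  obtain ⟨m, rfl⟩ : ∃ m, n = m + 2 := ⟨n - 2, by omega⟩
  have ht : Tight v a := ⟨ha, hflip, hbdd, htight, hdist⟩
  obtain ⟨K, hK⟩ := ht.exists_second_lim g
  set F : ι → ℝ := fun i => part v i a
  set L : ℝ := ∑ i, F i * g i with hL
  set M : ℝ := ∑ i, F i * (g i ^ 2 / a i) with hM
  set V : ℝ := U v a with hVdef
  have hQ : K + M - L ^ 2 / V ≤ 0 := ht.second_nonpos_lim heven hK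
  have hV : 0 < V := by
    have hopen : IsOpen {y : Fin (m + 2) → ℝ | ∀ j, ∑ k, v j k * y k < a j} := by
      simp only [Set.ofPred_forall]
      exact isOpen_iInter_of_finite fun j => isOpen_lt
        (continuous_finsetSum _ fun k _ => continuous_const.mul (continuous_apply k))
        continuous_const
    refine ENNReal.toReal_pos ?_ (poly_finite ht.toBdd a)
    exact ((hopen.measure_pos volume ⟨0, fun j => by simpa using ha j⟩).trans_le
      (measure_mono fun y hy j => (hy j).le)).ne'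
  -- the straight comparison lines
  set b : ℝ → ι → ℝ := fun t i => a i + t * g i with hb
  set l : ℝ → ι → ℝ := fun t i => a i + t * (lam * g i) with hl
  set c : ℝ → ι → ℝ := fun t i => a i ^ (1 - lam) * (a i + t * g i) ^ lam with hc
  set r : ι → ℝ → ℝ := fun i t =>
    c t i - l t i - lam * (lam - 1) * (g i ^ 2 / a i) / 2 * t ^ 2 with hr
  have hlin : ∀ (t : ℝ) (i : ι), HasDerivAt (fun t => a i + t * g i) (g i) t := fun t i =>
    (((hasDerivAt_id t).mul_const (g i)).const_add (a i)).congr_deriv (one_mul _)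
  have hc0 : c 0 = a := funext fun i => by simp [hc, ← Real.rpow_add (ha i)]
  have hre : ∀ i, r i =o[𝓝 (0 : ℝ)] fun t : ℝ => t ^ 2 := by
    intro i
    have hpos : ∀ᶠ t in 𝓝 (0 : ℝ), 0 < a i + t * g i :=
      (hlin 0 i).continuousAt.eventually (eventually_gt_nhds (by simpa using ha i))
    have hd := hpos.mono fun t ht =>
      ((hlin t i).rpow_const (p := lam) (.inl ht.ne')).const_mul (a i ^ (1 - lam))
    have hd2 := ((((hlin 0 i).rpow_const (p := lam - 1)
      (.inl (by simpa using (ha i).ne'))).const_mul (g i * lam))).const_mul (a i ^ (1 - lam))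
    refine (second_expansion hd hd2).congr_left fun t => ?_
    have e1 : a i ^ (1 - lam) * a i ^ lam = a i := by rw [← Real.rpow_add (ha i)]; simp
    have e2 : a i ^ (1 - lam) * a i ^ (lam - 1) = 1 := by rw [← Real.rpow_add (ha i)]; simp
    have e3 : a i ^ (1 - lam) * a i ^ (lam - 1 - 1) = (a i)⁻¹ := by
      rw [← Real.rpow_add (ha i), ← Real.rpow_neg_one]; ring_nf
    simp only [hr, hl, hc, zero_mul, add_zero, div_eq_mul_inv]
    linear_combination -e1 - (g i * lam * t) * e2
      - (g i ^ 2 * lam * (lam - 1) / 2 * t ^ 2) * e3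
  have hbc : Continuous b := continuous_pi fun i => by simp only [hb]; fun_prop
  have hlc : Continuous l := continuous_pi fun i => by simp only [hl]; fun_prop
  have hcc : ContinuousAt c 0 := continuousAt_pi.2 fun i =>
    (((hlin 0 i).rpow_const (.inl (by simpa using (ha i).ne'))).const_mul _).continuousAt
  -- the correction between the curve and the line
  have hstrict : HasStrictFDerivAt (U v) (DU v a) a :=
    hasStrictFDerivAt_of_hasFDerivAt_of_continuousAt
      ((eventually_reg ht.eventually_regA).mono fun x hx => hasFDerivAt_U ht.toBdd hx)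
      (tendsto_finsetSum _ fun i _ => Tendsto.smul_const
        (continuousAt_part ht.toBdd ht.eventually_regA i).tendsto _)
  have htend : Tendsto (fun t => (c t, l t)) (𝓝 (0 : ℝ)) (𝓝 (a, a)) := by
    have h1 : Tendsto c (𝓝 0) (𝓝 a) := hc0 ▸ hcc.tendsto
    have h2 : Tendsto l (𝓝 0) (𝓝 a) := by simpa [hl] using hlc.tendsto 0
    exact h1.prodMk_nhds h2
  have hcl : (fun t => c t - l t) =O[𝓝 (0 : ℝ)] fun t : ℝ => t ^ 2 := by
    refine isBigO_pi.2 fun i => ?_
    refine (((hre i).isBigO).add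
      ((isBigO_refl (fun t : ℝ => t ^ 2) _).const_mul_left
        (lam * (lam - 1) * (g i ^ 2 / a i) / 2))).congr_left fun t => ?_
    simp [hr]
  have hC : (fun t => U v (c t) - U v (l t) - DU v a (c t - l t)) =o[𝓝 (0 : ℝ)]
      fun t : ℝ => t ^ 2 := (hstrict.isLittleO.comp_tendsto htend).trans_isBigO hcl
  have hFr : (fun t => ∑ i, F i * r i t) =o[𝓝 (0 : ℝ)] fun t : ℝ => t ^ 2 :=
    (IsLittleO.sum (s := Finset.univ) fun i _ => (hre i).const_mul_left (F i)).congr_left
      fun t => Finset.sum_apply t _ _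
  -- the two expansions along lines
  have hB := ht.expansion hconv hK
  have hA := ht.expansion (g := fun i => lam * g i)
    (fun i j k p q hp hq hv hak => by nlinarith [hconv i j k p q hp hq hv hak])
    (K := lam ^ 2 * K) ((hK.const_mul (lam ^ 2)).congr fun x => by
      rw [Finset.mul_sum]
      refine Finset.sum_congr rfl fun i _ => ?_
      rw [show (fun i => lam * g i) = lam • g from rfl, map_smul, smul_eq_mul]
      ring)
  have hdb : HasDerivAt (fun t => U v (b t)) L 0 := by
    have hF : HasFDerivAt (U v) (DU v a) (b 0) := by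
      simpa [hb] using hstrict.hasFDerivAt
    have := hF.comp_hasDerivAt 0 (hasDerivAt_pi.2 fun i => hlin 0 i)
    rw [DU_apply] at this
    exact this
  have hx1 : (fun t => U v (b t) - V - L * t) =o[𝓝 (0 : ℝ)] fun t : ℝ => t :=
    hdb.isLittleO.congr (fun t => by simp [hb, hVdef]; ring) fun t => by simp
  have hxO : (fun t => U v (b t) - V) =O[𝓝 (0 : ℝ)] fun t : ℝ => t := by
    refine (hx1.isBigO.add ((isBigO_refl (fun t : ℝ => t) _).const_mul_left L)).congr_left
      fun t => ?_
    ring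
  have hx0 : Tendsto (fun t => U v (b t) - V) (𝓝 0) (𝓝 0) := hxO.trans_tendsto tendsto_id
  have hsq : (fun t => (U v (b t) - V) ^ 2 - L ^ 2 * t ^ 2) =o[𝓝 (0 : ℝ)]
      fun t : ℝ => t ^ 2 :=
    (hx1.mul_isBigO (hxO.add ((isBigO_refl (fun t : ℝ => t) _).const_mul_left L))).congr
      (fun t => by ring) fun t => by ring
  -- the power
  have hlinV : ∀ x : ℝ, HasDerivAt (fun x => V + x) 1 x := fun x =>
    (hasDerivAt_id x).const_add V
  have hVpos : ∀ᶠ x in 𝓝 (0 : ℝ), 0 < V + x :=
    (hlinV 0).continuousAt.eventually (eventually_gt_nhds (by simpa using hV))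
  have hψ := second_expansion
    (hVpos.mono fun x hx => (hlinV x).rpow_const (p := lam) (.inl hx.ne'))
    (((hlinV 0).rpow_const (p := lam - 1) (.inl (by simpa using hV.ne'))).const_mul (1 * lam))
  have hP := (hψ.comp_tendsto hx0).trans_isBigO
    ((hxO.pow 2).congr_right fun t => rfl)
  set w : ℝ := V ^ (1 - lam) with hw
  have w0 : w * V ^ lam = V := by rw [hw, ← Real.rpow_add hV]; simp
  have w1 : w * V ^ (lam - 1) = 1 := by rw [hw, ← Real.rpow_add hV]; simp
  have w2 : w * V ^ (lam - 1 - 1) = V⁻¹ := by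
    rw [hw, ← Real.rpow_add hV, ← Real.rpow_neg_one]; ring_nf
  have hle : 𝓝[Set.Ici 0] (0 : ℝ) ≤ 𝓝 0 := nhdsWithin_le_nhds
  have hD : (fun t => U v (c t) - w * U v (b t) ^ lam
      - lam * (lam - 1) * (K + M - L ^ 2 / V) / 2 * t ^ 2) =o[𝓝[Set.Ici 0] (0 : ℝ)]
      fun t : ℝ => t ^ 2 := by
    refine ((((((hA.add (hC.mono hle)).add (hFr.mono hle)).sub
      ((hP.mono hle).const_mul_left w)).sub (hB.const_mul_left lam)).sub
      ((hsq.mono hle).const_mul_left (lam * (lam - 1) / 2 * V⁻¹)))).congr_left fun t => ?_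
    have hsum : ∑ i, part v i a * (c t i - l t i)
        = ∑ i, F i * r i t + lam * (lam - 1) / 2 * t ^ 2 * M := by
      rw [hM, Finset.mul_sum, ← Finset.sum_add_distrib]
      refine Finset.sum_congr rfl fun i _ => ?_
      simp only [hr, F]; ring
    have hsumL : ∑ i, part v i a * (lam * g i) = lam * L := by
      rw [hL, Finset.mul_sum]
      exact Finset.sum_congr rfl fun i _ => by simp only [F]; ring
    simp only [Function.comp_apply, DU_apply, Pi.sub_apply]
    rw [hsum]
    simp only [hsumL, ← hL, hl, hb, ← hVdef,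
      add_zero, add_sub_cancel, div_eq_mul_inv, F]
    linear_combination w0 + (lam * (U v (fun i => a i + t * g i) - V)) * w1
      + (lam * (lam - 1) / 2 * (U v (fun i => a i + t * g i) - V) ^ 2) * w2
  filter_upwards [hD.bound hη] with t hDt
  have hge : 0 ≤ lam * (lam - 1) * (K + M - L ^ 2 / V) :=
    mul_nonneg_of_nonpos_of_nonpos (mul_nonpos_of_nonneg_of_nonpos h0 (by linarith)) hQ
  rw [Real.norm_eq_abs, Real.norm_eq_abs, abs_of_nonneg (sq_nonneg t)] at hDt
  have hmain : w * U v (b t) ^ lam ≤ U v (c t) + η * t ^ 2 := by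
    have h2 : 0 ≤ lam * (lam - 1) * (K + M - L ^ 2 / V) / 2 * t ^ 2 := by positivity
    linarith [(abs_le.1 hDt).1]
  exact hmain

end Vale.Agent.P227.Local
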