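import Vale.Agent.P227.Local.Family
import Vale.Agent.P227.Shared

/-! # P227: reduction of a parity class to a shared-reflection pair -/

set_option linter.unusedSectionVars false

open Set MeasureTheory Filter Topology Function

namespace Vale.Agent.P227.Local

/-- Second derivative test, one direction. -/
theorem eventually_nonneg_of_second {h h' : ℝ → ℝ} {q : ℝ} (h0 : h 0 = 0)
    (hd : ∀ᶠ t in 𝓝 0, HasDerivAt h (h' t) t) (h'0 : h' 0 = 0) (hd2 : HasDerivAt h' q 0)
    (hq : 0 < q) : ∀ᶠ t in 𝓝 0, 0 ≤ h t := by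
  have hlin := Asymptotics.isLittleO_iff.1 hd2.isLittleO (half_pos hq)
  obtain ⟨δ, hδ, hδP⟩ := Metric.eventually_nhds_iff.1 (hd.and hlin)
  refine Metric.eventually_nhds_iff.2 ⟨δ, hδ, fun t ht => ?_⟩
  have hball : ∀ s ∈ uIcc 0 t, dist s 0 < δ := fun s hs => by
    rw [Real.dist_eq] at ht ⊢
    exact lt_of_le_of_lt (abs_sub_left_of_mem_uIcc hs) ht
  have hsgn : ∀ s ∈ uIcc 0 t, |h' s - q * s| ≤ q / 2 * |s| := fun s hs => by
    simpa [h'0, mul_comm s q] using (hδP (hball s hs)).2
  rcases lt_trichotomy t 0 with htn | rfl | htp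
  · have hsub : Icc t 0 ⊆ uIcc 0 t := by rw [uIcc_comm, uIcc_of_le htn.le]
    obtain ⟨c, hc, hc'⟩ := exists_hasDerivAt_eq_slope h h' htn
      (fun s hs => (hδP (hball s (hsub hs))).1.continuousAt.continuousWithinAt)
      (fun s hs => (hδP (hball s (hsub (Ioo_subset_Icc_self hs)))).1)
    have h1 := (abs_le.1 (hsgn c (hsub (Ioo_subset_Icc_self hc)))).2
    rw [abs_of_neg hc.2] at h1
    have hneg : h' c < 0 := by nlinarith [hc.2]
    rw [hc', h0, div_lt_iff₀ (by linarith)] at hneg
    linarith
  · rw [h0]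
  · have hsub : Icc 0 t ⊆ uIcc 0 t := by rw [uIcc_of_le htp.le]
    obtain ⟨c, hc, hc'⟩ := exists_hasDerivAt_eq_slope h h' htp
      (fun s hs => (hδP (hball s (hsub hs))).1.continuousAt.continuousWithinAt)
      (fun s hs => (hδP (hball s (hsub (Ioo_subset_Icc_self hs)))).1)
    have h1 := (abs_le.1 (hsgn c (hsub (Ioo_subset_Icc_self hc)))).1
    rw [abs_of_pos hc.1] at h1
    have hpos : 0 < h' c := by nlinarith [hc.1]
    rw [hc', h0, lt_div_iff₀ (by linarith)] at hpos
    linarith

/-- Second derivative test at a maximum. -/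
theorem second_nonpos {h h' : ℝ → ℝ} {q : ℝ} (h0 : h 0 = 0)
    (hd : ∀ᶠ t in 𝓝 0, HasDerivAt h (h' t) t) (h'0 : h' 0 = 0) (hd2 : HasDerivAt h' q 0)
    (hle : ∀ᶠ t in 𝓝 0, h t ≤ 0) : q ≤ 0 := by
  by_contra hq
  push Not at hq
  have h1 : ∀ᶠ t in 𝓝 0, 0 ≤ h t - q / 4 * t ^ 2 := by
    refine eventually_nonneg_of_second (h' := fun t => h' t - q / 2 * t) (q := q / 2) (by simp [h0])
      (hd.mono fun t ht => ?_) (by simp [h'0]) ?_ (half_pos hq)
    · have := ht.sub ((hasDerivAt_pow 2 t).const_mul (q / 4))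
      exact this.congr_deriv (by norm_num; ring)
    · exact (hd2.sub ((hasDerivAt_id (0 : ℝ)).const_mul (q / 2))).congr_deriv (by ring)
  obtain ⟨t, ⟨ht, ht'⟩, ht0⟩ := (((h1.and hle).filter_mono nhdsWithin_le_nhds).and
    (self_mem_nhdsWithin (a := (0 : ℝ)) (s := {0}ᶜ))).exists
  have : 0 < t ^ 2 := pow_two_pos_of_ne_zero ht0
  nlinarith

variable {ι : Type*} [Fintype ι] [DecidableEq ι] {m : ℕ}
variable {v : ι → Fin (m + 2) → ℝ} {a : ι → ℝ}

/-- The mirror image of a constraint. -/
noncomputable def Std.refl (hs : Std v a) (q : Fin (m + 2)) (i : ι) : ι := (hs.flip i q).choose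

theorem Std.refl_v (hs : Std v a) (q : Fin (m + 2)) (i : ι) :
    v (hs.refl q i) = update (v i) q (-v i q) := (hs.flip i q).choose_spec.1

theorem Std.refl_a (hs : Std v a) (q : Fin (m + 2)) (i : ι) : a (hs.refl q i) = a i :=
  (hs.flip i q).choose_spec.2

theorem Std.refl_refl (hs : Std v a) (q : Fin (m + 2)) (i : ι) :
    hs.refl q (hs.refl q i) = i := by
  refine hs.inj ?_
  simp [hs.refl_v]

theorem Std.refl_comm (hs : Std v a) (q r : Fin (m + 2)) (i : ι) :
    hs.refl q (hs.refl r i) = hs.refl r (hs.refl q i) := by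
  rcases eq_or_ne q r with rfl | h
  · rfl
  refine hs.inj ?_
  funext k
  rw [hs.refl_v, hs.refl_v, hs.refl_v, hs.refl_v]
  by_cases h1 : k = q <;> by_cases h2 : k = r <;> simp_all [Ne.symm h]

theorem Std.refl_fix (hs : Std v a) {q : Fin (m + 2)} {i : ι} (h : v i q = 0) :
    hs.refl q i = i := by
  refine hs.inj ?_
  rw [hs.refl_v]
  funext k
  by_cases hk : k = q <;> simp [hk, h]

theorem Std.sum_flip (hs : Std v a) (q : Fin (m + 2)) (j : ι) (x : Fin (m + 2) → ℝ) :
    ∑ k, v j k * update x q (-x q) k = ∑ k, v (hs.refl q j) k * x k := by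
  rw [hs.refl_v]
  refine Finset.sum_congr rfl fun k _ => ?_
  by_cases hk : k = q <;> simp [hk]

theorem Std.U_refl (hs : Std v a) (q : Fin (m + 2)) (c : ι → ℝ) :
    U v (fun i => c (hs.refl q i)) = U v c := by
  have hpre : poly v (fun i => c (hs.refl q i))
      = (fun x : Fin (m + 2) → ℝ => update x q (-x q)) ⁻¹' poly v c := by
    ext x
    simp only [poly, mem_ofPred_eq, mem_preimage, hs.sum_flip]
    exact ⟨fun h j => by simpa [hs.refl_refl] using h (hs.refl q j),
      fun h j => by simpa [hs.refl_refl] using h (hs.refl q j)⟩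
  have hmp : MeasurePreserving (fun x : Fin (m + 2) → ℝ => update x q (-x q)) volume volume := by
    let f : Fin (m + 2) → ℝ → ℝ := fun k => if k = q then Neg.neg else id
    have hf : (fun x : Fin (m + 2) → ℝ => update x q (-x q)) = fun x k => f k (x k) := by
      funext x k
      by_cases hk : k = q <;> simp [f, hk]
    rw [hf]
    refine volume_preserving_pi fun k => ?_
    by_cases hk : k = q
    · simp only [f, if_pos hk]; exact Measure.measurePreserving_neg _
    · simp only [f, if_neg hk]; exact MeasurePreserving.id _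
  rw [U, U, hpre, hmp.measure_preimage (poly_closed v c).measurableSet.nullMeasurableSet]

/-- The quadratic form of second-order logarithmic concavity. -/
noncomputable def qform (v : ι → Fin (m + 2) → ℝ) (a d : ι → ℝ) : ℝ :=
  (∑ i, (dpart v a i (fun j => a j * d j) * (a i * d i) + part v i a * (a i * d i ^ 2)))
    - (∑ i, part v i a * (a i * d i)) ^ 2 / U v a

theorem Std.hasDerivAt_exp (hs : Std v a) (d : ι → ℝ) :
    (∀ᶠ t in 𝓝 0, HasDerivAt (fun t => U v (fun i => a i * Real.exp (t * d i)))
        (∑ i, part v i (fun i => a i * Real.exp (t * d i)) * (a i * d i * Real.exp (t * d i))) t) ∧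
      HasDerivAt
        (fun t => ∑ i, part v i (fun i => a i * Real.exp (t * d i))
          * (a i * d i * Real.exp (t * d i)))
        (∑ i, (dpart v a i (fun j => a j * d j) * (a i * d i)
          + part v i a * (a i * d i ^ 2))) 0 := by
  have hb : ∀ t, HasDerivAt (fun t i => a i * Real.exp (t * d i))
      (fun i => a i * d i * Real.exp (t * d i)) t := fun t =>
    hasDerivAt_pi.2 fun i => ((((hasDerivAt_id t).mul_const (d i)).exp).const_mul (a i)).congr_deriv
      (by simp; ring)
  have hb' : HasDerivAt (fun t i => a i * d i * Real.exp (t * d i))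
      (fun i => a i * d i ^ 2) 0 :=
    hasDerivAt_pi.2 fun i =>
      ((((hasDerivAt_id (0 : ℝ)).mul_const (d i)).exp).const_mul (a i * d i)).congr_deriv
        (by simp; ring)
  obtain ⟨h1, h2⟩ := hasDerivAt_curve hs (by simp) (.of_forall hb) hb'
  exact ⟨h1, by simpa using h2⟩

theorem Std.qform_refl (hs : Std v a) (q : Fin (m + 2)) (d : ι → ℝ) :
    qform v a (fun i => d (hs.refl q i)) = qform v a d ∧
      ∑ i, part v i a * (a i * d (hs.refl q i)) = ∑ i, part v i a * (a i * d i) := by
  obtain ⟨h1, h2⟩ := hs.hasDerivAt_exp (fun i => d (hs.refl q i))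
  obtain ⟨g1, g2⟩ := hs.hasDerivAt_exp d
  have hfun : (fun t => U v (fun i => a i * Real.exp (t * d (hs.refl q i))))
      = fun t => U v (fun i => a i * Real.exp (t * d i)) := by
    funext t
    rw [← hs.U_refl q (fun i => a i * Real.exp (t * d i))]
    simp [hs.refl_a]
  rw [hfun] at h1
  have heq := (h1.and g1).mono fun t ht => ht.1.unique ht.2
  have hL := heq.self_of_nhds
  have h3 := h2.unique (g2.congr_of_eventuallyEq heq)
  simp at hL
  exact ⟨by rw [qform, qform, h3, hL], hL⟩

theorem qform_parallelogram (v : ι → Fin (m + 2) → ℝ) (a x y : ι → ℝ) :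
    qform v a (x + y) + qform v a (x - y) = 2 * qform v a x + 2 * qform v a y := by
  have e1 : (fun j => a j * (x + y) j) = (fun j => a j * x j) + fun j => a j * y j := by
    funext j; simp [mul_add]
  have e2 : (fun j => a j * (x - y) j) = (fun j => a j * x j) - fun j => a j * y j := by
    funext j; simp [mul_sub]
  have hL1 : ∑ i, part v i a * (a i * (x + y) i)
      = ∑ i, part v i a * (a i * x i) + ∑ i, part v i a * (a i * y i) := by
    simp [mul_add, Finset.sum_add_distrib]
  have hL2 : ∑ i, part v i a * (a i * (x - y) i)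
      = ∑ i, part v i a * (a i * x i) - ∑ i, part v i a * (a i * y i) := by
    simp [mul_sub, Finset.sum_sub_distrib]
  set f : (ι → ℝ) → ι → ℝ := fun d i =>
    dpart v a i (fun j => a j * d j) * (a i * d i) + part v i a * (a i * d i ^ 2) with hf
  have hK : ∑ i, f (x + y) i + ∑ i, f (x - y) i = 2 * ∑ i, f x i + 2 * ∑ i, f y i := by
    rw [← Finset.sum_add_distrib, Finset.mul_sum, Finset.mul_sum, ← Finset.sum_add_distrib]
    refine Finset.sum_congr rfl fun i _ => ?_
    simp only [hf, e1, e2, map_add, map_sub]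
    simp only [Pi.add_apply, Pi.sub_apply]
    ring
  simp only [qform, hL1, hL2]
  linear_combination hK

theorem hasDerivAt_comp_neg' {f : ℝ → ℝ} {f' t : ℝ} (h : HasDerivAt f f' (-t)) :
    HasDerivAt (fun s => f (-s)) (-f') t :=
  (h.comp t (hasDerivAt_neg t)).congr_deriv (by ring)

/-- The pair case: invariance outside two coordinates. -/
theorem Std.qform_pair (hs : Std v a) {p p' : Fin (m + 2)} (hp : p ≠ p') {d : ι → ℝ}
    (heven : ∀ i j, v j = -v i → d j = d i)
    (hinv : ∀ q, q ≠ p → q ≠ p' → ∀ i, d (hs.refl q i) = d i) : qform v a d ≤ 0 := by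
  set φ : ℝ → ℝ := fun t => U v (fun i => a i * Real.exp (t * d i))
  set φ' : ℝ → ℝ := fun t =>
    ∑ i, part v i (fun i => a i * Real.exp (t * d i)) * (a i * d i * Real.exp (t * d i))
  obtain ⟨h1, h2⟩ := hs.hasDerivAt_exp d
  set κ := ∑ i, (dpart v a i (fun j => a j * d j) * (a i * d i) + part v i a * (a i * d i ^ 2))
  have hneg : ∀ i, ∃ j, v j = -v i ∧ a j = a i := by
    intro i
    have : ∀ s : Finset (Fin (m + 2)),
        ∃ j, v j = (fun k => if k ∈ s then -v i k else v i k) ∧ a j = a i := by
      intro s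
      induction s using Finset.induction_on with
      | empty => exact ⟨i, by simp⟩
      | insert q s hq ih =>
        obtain ⟨j, hj, hja⟩ := ih
        refine ⟨hs.refl q j, ?_, by rw [hs.refl_a, hja]⟩
        rw [hs.refl_v, hj]
        funext k
        by_cases hk : k = q <;> simp [hk, hq]
    simpa [funext_iff] using this Finset.univ
  have hbody : ∀ t, φ t * φ (-t) - φ 0 * φ 0 ≤ 0 := by
    intro t
    let P : (ι → ℝ) → Set (EuclideanSpace ℝ (Fin (m + 2))) := fun c => WithLp.ofLp ⁻¹' poly v c
    have hvol : ∀ c, (volume (P c)).toReal = U v c := fun c => by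
      rw [U]
      exact congrArg ENNReal.toReal ((PiLp.volume_preserving_ofLp (Fin (m + 2))).measure_preimage
        (poly_closed v c).measurableSet.nullMeasurableSet)
    have hfin : ∀ c, volume (P c) ≠ ⊤ := fun c => by
      rw [(PiLp.volume_preserving_ofLp (Fin (m + 2))).measure_preimage
        (poly_closed v c).measurableSet.nullMeasurableSet]
      exact poly_finite hs.toBdd c
    let c : ℝ → ι → ℝ := fun t i => a i * Real.exp (t * d i)
    have hcpos : ∀ t i, 0 < c t i := fun t i => mul_pos (hs.pos i) (Real.exp_pos _)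
    let b := (EuclideanSpace.basisFun (Fin (m + 2)) ℝ).toBasis
    have hsym : ∀ t, Sym (P (c t)) := by
      intro t
      refine ⟨?_, fun x hx y hy r s hr hs' hrs => fun j => ?_, fun x hx => fun j => ?_⟩
      · obtain ⟨C, hC⟩ := hs.toBdd ‖c t‖
        have hcomp : IsCompact (poly v (c t)) :=
          Metric.isCompact_of_isClosed_isBounded (poly_closed v _)
            (isBounded_iff_forall_norm_le.2 ⟨C, fun y hy => hC _ le_rfl y hy⟩)
        exact (EuclideanSpace.equiv (Fin (m + 2)) ℝ).toHomeomorph.isCompact_preimage.2 hcomp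
      · simp only [WithLp.ofLp_add, WithLp.ofLp_smul, Pi.add_apply, Pi.smul_apply, smul_eq_mul,
          mul_add, mul_left_comm (v j _), Finset.sum_add_distrib, ← Finset.mul_sum]
        calc _ ≤ r * c t j + s * c t j := add_le_add (mul_le_mul_of_nonneg_left (hx j) hr)
              (mul_le_mul_of_nonneg_left (hy j) hs')
          _ = _ := by rw [← add_mul, hrs, one_mul]
      · obtain ⟨j', hj', hja⟩ := hneg j
        have := hx j'
        simpa [hj', c, hja, heven j j' hj', WithLp.ofLp_neg] using this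
    have hrefl : ∀ t, ∀ q, q ≠ p → q ≠ p' → ∀ x ∈ P (c t), x - (2 * b.repr x q) • b q ∈ P (c t) := by
      intro t q hq hq' x hx j
      have hof : WithLp.ofLp (x - (2 * b.repr x q) • b q) = update (WithLp.ofLp x) q (-x.ofLp q) := by
        funext k
        by_cases hk : k = q
        · subst hk; simp [b]; ring
        · simp [b, hk]
      rw [hof, hs.sum_flip]
      have := hx (hs.refl q j)
      simpa [c, hs.refl_a, hinv q hq hq'] using this
    have hlog : logSum (1 / 2) (P (c t)) (P (c (-t))) ⊆ P a := by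
      intro x hx j
      let L : EuclideanSpace ℝ (Fin (m + 2)) →ₗ[ℝ] ℝ :=
        (∑ k, v j k • LinearMap.proj k) ∘ₗ
          (EuclideanSpace.equiv (Fin (m + 2)) ℝ).toLinearEquiv.toLinearMap
      have hL : ∀ y, L y = ∑ k, v j k * y.ofLp k := fun y => by simp [L]
      have hsupp : ∀ s, 0 ≤ supp (P (c s)) L ∧ supp (P (c s)) L ≤ c s j := by
        intro s
        have h0 : (0 : EuclideanSpace ℝ (Fin (m + 2))) ∈ P (c s) := fun i => by
          simpa using (hcpos s i).le
        exact ⟨(hsym s).supp_nonneg ⟨0, h0⟩ L,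
          supp_le ⟨0, h0⟩ fun y hy => (hL y).trans_le (hy j)⟩
      rw [← hL]
      refine (hx L).trans ?_
      rw [show (1 : ℝ) - 1 / 2 = 1 / 2 by norm_num, ← Real.mul_rpow (hsupp t).1 (hsupp (-t)).1,
        ← Real.sqrt_eq_rpow, Real.sqrt_le_left (hs.pos j).le]
      refine (mul_le_mul (hsupp t).2 (hsupp (-t)).2 (hsupp (-t)).1 (hcpos t j).le).trans_eq ?_
      simp only [c, neg_mul, Real.exp_neg]
      field_simp
    have key := (shared b hp (hsym t) (hsym (-t)) (hrefl t) (hrefl (-t)) (lam := 1 / 2)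
      (by norm_num) (by norm_num)).trans (measure_mono hlog)
    have key' := ENNReal.toReal_mono (hfin a) key
    rw [ENNReal.toReal_mul, ← ENNReal.toReal_rpow, ← ENNReal.toReal_rpow, hvol, hvol, hvol,
      show (1 : ℝ) - 1 / 2 = 1 / 2 by norm_num, ← Real.sqrt_eq_rpow, ← Real.sqrt_eq_rpow] at key'
    have e0 : φ 0 = U v a := by simp [φ]
    have hp1 : 0 ≤ U v (c t) := ENNReal.toReal_nonneg
    have hp2 : 0 ≤ U v (c (-t)) := ENNReal.toReal_nonneg
    have hsq := pow_le_pow_left₀ (by positivity) key' 2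
    rw [mul_pow, Real.sq_sqrt hp1, Real.sq_sqrt hp2] at hsq
    rw [e0, sub_nonpos]
    calc φ t * φ (-t) = U v (c t) * U v (c (-t)) := rfl
      _ ≤ _ := hsq.trans_eq (sq (U v a))
  have h1n : ∀ᶠ t in 𝓝 (0 : ℝ), HasDerivAt φ (φ' (-t)) (-t) :=
    (tendsto_neg (0 : ℝ)).eventually (by simpa using h1)
  have hd : ∀ᶠ t in 𝓝 0, HasDerivAt (fun t => φ t * φ (-t) - φ 0 * φ 0)
      (φ' t * φ (-t) - φ t * φ' (-t)) t := by
    filter_upwards [h1, h1n] with t ht ht'
    exact ((HasDerivAt.mul ht (hasDerivAt_comp_neg' ht')).sub_const _).congr_deriv (by ring)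
  have hφ0 : HasDerivAt φ (φ' 0) 0 := h1.self_of_nhds
  have h2n : HasDerivAt (fun t => φ' (-t)) (-κ) 0 := hasDerivAt_comp_neg' (by simpa using h2)
  have hφn : HasDerivAt (fun t => φ (-t)) (-φ' 0) 0 := hasDerivAt_comp_neg' (by simpa using hφ0)
  have hd2 : HasDerivAt (fun t => φ' t * φ (-t) - φ t * φ' (-t))
      (2 * (κ * φ 0 - φ' 0 ^ 2)) 0 :=
    ((HasDerivAt.mul h2 hφn).sub (HasDerivAt.mul hφ0 h2n)).congr_deriv (by simp only [neg_zero]; ring)
  have hq := second_nonpos (h := fun t => φ t * φ (-t) - φ 0 * φ 0) (by simp) hd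
    (by simp; ring) hd2 (.of_forall hbody)
  have e0 : φ 0 = U v a := by simp [φ]
  have e1 : φ' 0 = ∑ i, part v i a * (a i * d i) := by simp [φ']
  rw [e0, e1] at hq
  rw [qform, sub_nonpos, le_div_iff₀ hs.volume_pos]
  linarith

theorem Std.par_neg (hs : Std v a) {d : ι → ℝ} {S : Finset (Fin (m + 2))}
    (hS : ∀ q, ∀ i, d (hs.refl q i) = (if q ∈ S then -1 else 1) * d i) {i j : ι}
    (hij : v j = -v i) : d j = (-1) ^ S.card * d i := by
  have key : ∀ s : Finset (Fin (m + 2)), ∃ l, v l = (fun k => if k ∈ s then -v i k else v i k) ∧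
      d l = (∏ q ∈ s, (if q ∈ S then (-1 : ℝ) else 1)) * d i := by
    intro s
    induction s using Finset.induction_on with
    | empty => exact ⟨i, by simp⟩
    | insert q s hq ih =>
      obtain ⟨l, hl, hld⟩ := ih
      refine ⟨hs.refl q l, ?_, by rw [hS, hld, Finset.prod_insert hq]; ring⟩
      rw [hs.refl_v, hl]
      funext k
      by_cases hk : k = q <;> simp [hk, hq]
  obtain ⟨l, hl, hld⟩ := key Finset.univ
  have hlj : l = j := hs.inj (by rw [hl, hij]; funext k; simp)
  rw [← hlj, hld, Finset.prod_ite_mem]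
  simp

/-- The sign used to move a parity. -/
noncomputable def sgn (x : ℝ) : ℝ := if x < 0 then -1 else 1

theorem sgn_neg {x : ℝ} (h : x ≠ 0) : sgn (-x) = -sgn x := by
  rcases lt_or_gt_of_ne h with hx | hx <;> simp [sgn, hx, hx.le]

theorem sgn_mul_self (x : ℝ) : sgn x * sgn x = 1 := by unfold sgn; split <;> norm_num

theorem sgn_ne {x y : ℝ} (h : sgn x ≠ sgn y) (hx : x ≠ 0) (hy : y ≠ 0) : x * y < 0 := by
  rcases lt_or_gt_of_ne hx with hx' | hx' <;> rcases lt_or_gt_of_ne hy with hy' | hy' <;>
    simp [sgn, hx', hy', not_lt.2, hx'.le, hy'.le] at h <;>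
    first
      | exact mul_neg_of_neg_of_pos hx' hy'
      | exact mul_neg_of_pos_of_neg hx' hy'

/-- The case of one parity. -/
theorem Std.qform_parity (hs : Std v a) {d : ι → ℝ} (heven : ∀ i j, v j = -v i → d j = d i)
    {S : Finset (Fin (m + 2))}
    (hS : ∀ q, ∀ i, d (hs.refl q i) = (if q ∈ S then -1 else 1) * d i) : qform v a d ≤ 0 := by
  rcases eq_or_ne d 0 with rfl | hd0
  · simp [qform]
  obtain ⟨i₀, hi₀⟩ : ∃ i, d i ≠ 0 := Function.ne_iff.1 hd0
  rcases S.eq_empty_or_nonempty with rfl | hne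
  · refine hs.qform_pair (p := 0) (p' := 1) (by simp) heven fun q _ _ i => ?_
    simpa using hS q i
  have hcard : Even S.card := by
    obtain ⟨j, hj⟩ : ∃ j, v j = -v i₀ := by
      have : ∀ s : Finset (Fin (m + 2)),
          ∃ j, v j = (fun k => if k ∈ s then -v i₀ k else v i₀ k) := by
        intro s
        induction s using Finset.induction_on with
        | empty => exact ⟨i₀, by simp⟩
        | insert q s hq ih =>
          obtain ⟨j, hj⟩ := ih
          refine ⟨hs.refl q j, ?_⟩
          rw [hs.refl_v, hj]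
          funext k
          by_cases hk : k = q <;> simp [hk, hq]
      simpa [funext_iff] using this Finset.univ
    have h1 := hs.par_neg hS hj
    rw [heven i₀ j hj] at h1
    by_contra hodd
    rw [(Nat.not_even_iff_odd.1 hodd).neg_one_pow] at h1
    exact hi₀ (by linarith)
  obtain ⟨p, hpS, p', hp'S, hpp⟩ : ∃ p ∈ S, ∃ p' ∈ S, p ≠ p' := by
    refine Finset.one_lt_card.1 ?_
    obtain ⟨r, hr⟩ := hcard
    have := hne.card_pos
    omega
  set T := (S.erase p).erase p'
  set σ : ι → ℝ := fun i => ∏ q ∈ T, sgn (v i q)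
  have hσ2 : ∀ i, σ i * σ i = 1 := fun i => by
    simp only [σ, ← Finset.prod_mul_distrib, sgn_mul_self, Finset.prod_const_one]
  set d' : ι → ℝ := fun i => d i * σ i with hd'
  have hTS : ∀ q ∈ T, q ∈ S := fun q hq => Finset.mem_of_mem_erase (Finset.mem_of_mem_erase hq)
  have hzero : ∀ q ∈ S, ∀ i, v i q = 0 → d i = 0 := fun q hq i h => by
    have := hS q i
    rw [hs.refl_fix h, if_pos hq] at this
    linarith
  have hσ : ∀ q, ∀ i, v i q ≠ 0 →
      σ (hs.refl q i) = (if q ∈ T then -1 else 1) * σ i := by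
    intro q i hi
    have hoff : ∀ k, k ≠ q → v (hs.refl q i) k = v i k := fun k hk => by
      rw [hs.refl_v, update_of_ne hk]
    by_cases hq : q ∈ T
    · simp only [σ, if_pos hq, ← Finset.mul_prod_erase T _ hq]
      rw [Finset.prod_congr rfl fun k hk => by rw [hoff k (Finset.ne_of_mem_erase hk)],
        hs.refl_v, update_self, sgn_neg hi]
      ring
    · simp only [σ, if_neg hq, one_mul]
      exact Finset.prod_congr rfl fun k hk => by rw [hoff k fun h => hq (h ▸ hk)]
  have hS' : ∀ q, ∀ i, d' (hs.refl q i)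
      = (if q ∈ ({p, p'} : Finset (Fin (m + 2))) then -1 else 1) * d' i := by
    intro q i
    by_cases hi : v i q = 0
    · rw [hs.refl_fix hi]
      by_cases hq : q ∈ ({p, p'} : Finset (Fin (m + 2)))
      · have : q ∈ S := by
          rcases Finset.mem_insert.1 hq with rfl | hq
          · exact hpS
          · rwa [Finset.mem_singleton.1 hq]
        simp [hd', hzero q this i hi]
      · simp [hq]
    · simp only [hd', hS q i, hσ q i hi]
      have : (q ∈ S) ↔ (q = p ∨ q = p' ∨ q ∈ T) := by
        simp only [T, Finset.mem_erase]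
        refine ⟨fun h => ?_, ?_⟩
        · by_cases h1 : q = p
          · exact .inl h1
          by_cases h2 : q = p'
          · exact .inr (.inl h2)
          exact .inr (.inr ⟨h2, h1, h⟩)
        · rintro (rfl | rfl | ⟨-, -, h⟩) <;> assumption
      have hpT : p ∉ T := fun h => Finset.notMem_erase p S (Finset.mem_of_mem_erase h)
      have hp'T : p' ∉ T := Finset.notMem_erase p' _
      by_cases h1 : q = p
      · simp [h1, hpS, hpT]
      by_cases h2 : q = p'
      · simp [h2, hp'S, hp'T]
      by_cases h3 : q ∈ T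
      · simp [h1, h2, h3, hTS q h3]
      · simp [h1, h2, h3, mt this.1 (by simp [h1, h2, h3])]
  have heven' : ∀ i j, v j = -v i → d' j = d' i := fun i j h => by
    simpa [hpp] using hs.par_neg hS' h
  have hpair : qform v a d' ≤ 0 := hs.qform_pair hpp heven' fun q h1 h2 i => by
    simpa [h1, h2] using hS' q i
  have hL : ∀ (e : ι → ℝ), (∀ i, e (hs.refl p i) = -e i) →
      ∑ i, part v i a * (a i * e i) = 0 := by
    intro e he
    have h := (hs.qform_refl p e).2
    simp only [he, mul_neg, Finset.sum_neg_distrib] at h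
    linarith
  refine le_trans ?_ hpair
  rw [qform, qform, hL d (fun i => by simpa [hpS] using hS p i),
    hL d' (fun i => by simpa using hS' p i)]
  refine sub_le_sub_right (Finset.sum_le_sum fun i _ => add_le_add ?_ (le_of_eq ?_)) _
  · rw [dpart_apply, dpart_apply, Finset.sum_mul, Finset.sum_mul]
    refine Finset.sum_le_sum fun j _ => ?_
    rcases eq_or_ne j i with rfl | hji
    · simp
    simp only [if_neg hji]
    have hkey : 0 ≤ coef v a i j * (d i * d j * (σ i * σ j - 1)) := by
      by_cases hσij : σ i = σ j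
      · simp [hσij, hσ2]
      by_cases hdd : d i * d j = 0
      · simp [hdd]
      obtain ⟨q, hqT, hq⟩ : ∃ q ∈ T, sgn (v i q) ≠ sgn (v j q) := by
        by_contra hc
        push Not at hc
        exact hσij (Finset.prod_congr rfl hc)
      have hneg : v i q * v j q < 0 := sgn_ne hq
        (fun h => left_ne_zero_of_mul hdd (hzero q (hTS q hqT) i h))
        (fun h => right_ne_zero_of_mul hdd (hzero q (hTS q hqT) j h))
      by_cases hjl : j = hs.refl q i
      · have h1 : d i * d j ≤ 0 := by
          rw [hjl, hS q i, if_pos (hTS q hqT)]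
          nlinarith [mul_self_nonneg (d i)]
        have h2 : σ i * σ j - 1 ≤ 0 := by
          nlinarith [hσ2 i, hσ2 j, mul_self_nonneg (σ i - σ j)]
        exact mul_nonneg (coef_nonneg v a i j) (mul_nonneg_of_nonpos_of_nonpos h1 h2)
      · simp [hs.coef_zero (hs.refl_v q i) (hs.refl_a q i) hneg hjl]
    have := mul_nonneg (mul_pos (hs.pos i) (hs.pos j)).le hkey
    simp only [hd']
    linear_combination this + (coef v a i j * (v j (piv v i) / v i (piv v i)) * a i ^ 2
      * d i ^ 2) * hσ2 i
  · simp only [hd']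
    linear_combination (-(part v i a * a i * d i ^ 2)) * hσ2 i

/-- Second-order logarithmic concavity in every even direction. -/
theorem Std.qform_nonpos (hs : Std v a) {d : ι → ℝ} (heven : ∀ i j, v j = -v i → d j = d i) :
    qform v a d ≤ 0 := by
  classical
  suffices H : ∀ (s : Finset (Fin (m + 2))) (d : ι → ℝ), (∀ i j, v j = -v i → d j = d i) →
      (∀ q, q ∉ s → (∀ i, d (hs.refl q i) = d i) ∨ (∀ i, d (hs.refl q i) = -d i)) →
      qform v a d ≤ 0 from H Finset.univ d heven (by simp)
  intro s
  induction s using Finset.induction_on with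
  | empty =>
    intro d hev hpar
    refine hs.qform_parity hev
      (S := Finset.univ.filter fun q => ¬ ∀ i, d (hs.refl q i) = d i) fun q i => ?_
    rcases hpar q (Finset.notMem_empty q) with h | h
    · simp [h]
    · by_cases h' : ∀ i, d (hs.refl q i) = d i
      · simp [h']
      · simp only [Finset.mem_filter, Finset.mem_univ, true_and, h', not_false_eq_true, if_true]
        rw [h i]; ring
  | insert q s hq ih =>
    intro d hev hpar
    set x : ι → ℝ := fun i => (d i + d (hs.refl q i)) / 2 with hx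
    set y : ι → ℝ := fun i => (d i - d (hs.refl q i)) / 2 with hy
    have hevR : ∀ i j, v j = -v i → d (hs.refl q j) = d (hs.refl q i) := fun i j h =>
      hev _ _ (by rw [hs.refl_v, hs.refl_v, h]; funext k; by_cases hk : k = q <;> simp [hk])
    have hx' : qform v a x ≤ 0 := by
      refine ih x (fun i j h => by simp [hx, hev i j h, hevR i j h]) fun r hr => ?_
      rcases eq_or_ne r q with rfl | hrq
      · left; intro i; simp [hx, hs.refl_refl]; ring
      rcases hpar r (by simp [hr, hrq]) with h | h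
      · left; intro i; simp [hx, h, hs.refl_comm q r]
      · right; intro i; simp [hx, h, hs.refl_comm q r]; ring
    have hy' : qform v a y ≤ 0 := by
      refine ih y (fun i j h => by simp [hy, hev i j h, hevR i j h]) fun r hr => ?_
      rcases eq_or_ne r q with rfl | hrq
      · right; intro i; simp [hy, hs.refl_refl]; ring
      rcases hpar r (by simp [hr, hrq]) with h | h
      · left; intro i; simp [hy, h, hs.refl_comm q r]
      · right; intro i; simp [hy, h, hs.refl_comm q r]; ring
    have e1 : x + y = d := by funext i; simp [hx, hy]; ring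
    have e2 : x - y = fun i => d (hs.refl q i) := by funext i; simp [hx, hy]; ring
    have := qform_parallelogram v a x y
    rw [e1, e2, (hs.qform_refl q d).1] at this
    linarith

end Vale.Agent.P227.Local
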