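import Vale.Agent.P227.Local.Degenerate

/-! # P227: assembling the second-order inequality -/

set_option linter.unusedSectionVars false

open Set MeasureTheory Filter Topology Function Asymptotics

namespace Vale.Agent.P227.Local

/-- The second-order expansion from two derivatives. -/
theorem second_expansion {h h' : ℝ → ℝ} {q : ℝ}
    (hd : ∀ᶠ t in 𝓝 0, HasDerivAt h (h' t) t) (hd2 : HasDerivAt h' q 0) :
    (fun t => h t - h 0 - h' 0 * t - q / 2 * t ^ 2) =o[𝓝 (0 : ℝ)] fun t => t ^ 2 := by
  refine isLittleO_iff.2 fun η hη => ?_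
  have up := eventually_nonneg_of_second
    (h := fun t => h t - h 0 - h' 0 * t - (q / 2 - η) * t ^ 2)
    (h' := fun t => h' t - h' 0 - (q - 2 * η) * t) (q := 2 * η) (by simp)
    (hd.mono fun t ht => (((ht.sub_const (h 0)).sub ((hasDerivAt_id t).const_mul (h' 0))).sub
      ((hasDerivAt_pow 2 t).const_mul (q / 2 - η))).congr_deriv (by simp; ring))
    (by simp)
    (((hd2.sub_const (h' 0)).sub ((hasDerivAt_id (0 : ℝ)).const_mul (q - 2 * η))).congr_deriv
      (by ring)) (by positivity)
  have down := eventually_nonneg_of_second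
    (h := fun t => (q / 2 + η) * t ^ 2 + h' 0 * t + h 0 - h t)
    (h' := fun t => (q + 2 * η) * t + h' 0 - h' t) (q := 2 * η) (by simp)
    (hd.mono fun t ht => (((((hasDerivAt_pow 2 t).const_mul (q / 2 + η))).add
      ((hasDerivAt_id t).const_mul (h' 0))).add_const (h 0) |>.sub ht).congr_deriv (by simp; ring))
    (by simp)
    (((((hasDerivAt_id (0 : ℝ)).const_mul (q + 2 * η))).add_const (h' 0) |>.sub hd2).congr_deriv
      (by ring)) (by positivity)
  filter_upwards [up, down] with t hu hl
  rw [Real.norm_eq_abs, Real.norm_eq_abs, abs_of_nonneg (sq_nonneg t), abs_le]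
  constructor <;> linarith

variable {ι : Type*} [Fintype ι] [DecidableEq ι] {m : ℕ}
variable {v : ι → Fin (m + 2) → ℝ} {a : ι → ℝ}

theorem Std.neg_val (hs : Std v a) {i j : ι} (hij : v j = -v i) : a j = a i := by
  have key : ∀ s : Finset (Fin (m + 2)),
      ∃ l, v l = (fun k => if k ∈ s then -v i k else v i k) ∧ a l = a i := by
    intro s
    induction s using Finset.induction_on with
    | empty => exact ⟨i, by simp⟩
    | insert q s hq ih =>
      obtain ⟨l, hl, hla⟩ := ih
      refine ⟨hs.refl q l, ?_, by rw [hs.refl_a, hla]⟩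
      rw [hs.refl_v, hl]
      funext k
      by_cases hk : k = q <;> simp [hk, hq]
  obtain ⟨l, hl, hla⟩ := key Finset.univ
  have : l = j := hs.inj (by rw [hl, hij]; funext k; simp)
  rw [← this, hla]

theorem Tight.second_nonpos_lim (ht : Tight v a) {g : ι → ℝ}
    (heven : ∀ i j, v j = -v i → g j = g i) {K : ℝ}
    (hK : Tendsto (fun b => ∑ i, dpart v b i g * g i) (𝓝[dom v a] a) (𝓝 K)) :
    K + (∑ i, part v i a * (g i ^ 2 / a i)) - (∑ i, part v i a * g i) ^ 2 / U v a ≤ 0 := by
  set b : ℝ → ι → ℝ := fun ε i => a i + ε * len v i with hb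
  have hb0 : Tendsto b (𝓝[>] 0) (𝓝 a) := by
    have : Continuous b := continuous_pi fun i => by simp only [hb]; fun_prop
    simpa [hb] using (this.tendsto 0).mono_left nhdsWithin_le_nhds
  have hbdom : Tendsto b (𝓝[>] 0) (𝓝[dom v a] a) :=
    tendsto_nhdsWithin_iff.2 ⟨hb0, eventually_of_mem self_mem_nhdsWithin fun ε hε => by
      have := ht.perturb_mem (g := 0) (by intros; simp) (mem_Ioi.1 hε) le_rfl
      simpa [hb] using this⟩
  have hp : ∀ i, Tendsto (fun ε => part v i (b ε)) (𝓝[>] 0) (𝓝 (part v i a)) := fun i =>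
    (continuousAt_part ht.toBdd ht.eventually_regA i).tendsto.comp hb0
  have hU : Tendsto (fun ε => U v (b ε)) (𝓝[>] 0) (𝓝 (U v a)) :=
    (hasFDerivAt_U ht.toBdd ht.eventually_regA).continuousAt.tendsto.comp hb0
  have hV : 0 < U v a := by
    have hopen : IsOpen {y : Fin (m + 2) → ℝ | ∀ j, ∑ k, v j k * y k < a j} := by
      simp only [ofPred_forall]
      exact isOpen_iInter_of_finite fun j => isOpen_lt
        (continuous_finsetSum _ fun k _ => continuous_const.mul (continuous_apply k))
        continuous_const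
    refine ENNReal.toReal_pos ?_ (poly_finite ht.toBdd a)
    exact ((hopen.measure_pos volume ⟨0, fun j => by simpa using ht.pos j⟩).trans_le
      (measure_mono fun y hy j => (hy j).le)).ne'
  have hlim := ((hK.comp hbdom).add (tendsto_finsetSum Finset.univ fun i _ =>
      (hp i).mul (tendsto_const_nhds.div (((continuous_apply i).tendsto a).comp hb0) (ht.pos i).ne'
        (f := fun _ => g i ^ 2)))).sub
    (((tendsto_finsetSum Finset.univ fun i _ => (hp i).mul_const (g i)).pow 2).div hU hV.ne')
  refine le_of_tendsto hlim (eventually_of_mem self_mem_nhdsWithin fun ε hε => ?_)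
  have hs := ht.std (mem_Ioi.1 hε)
  have hbpos : ∀ i, 0 < b ε i := hs.pos
  have had : ∀ i, b ε i * (g i / b ε i) = g i := fun i => mul_div_cancel₀ _ (hbpos i).ne'
  have hQ := hs.qform_nonpos (d := fun i => g i / b ε i) fun i j hij => by
    rw [heven i j hij]
    exact congrArg (g i / ·) (hs.neg_val hij)
  change qform v (b ε) (fun i => g i / b ε i) ≤ 0 at hQ
  simp only [qform, had, Finset.sum_add_distrib] at hQ
  simp only [Function.comp_apply, Pi.div_apply]
  refine le_of_eq_of_le ?_ hQ
  congr 2
  refine Finset.sum_congr rfl fun i _ => ?_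
  have := (hbpos i).ne'
  field_simp

end Vale.Agent.P227.Local
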